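import Vale.Agent.P282W.Cone

/-!
P282W: the vertex of the quadric cone is a singular ordinary double point
-/

open MvPolynomial IsLocalRing Vale.Agent.P282.Gap

namespace Vale.Agent.P282W.Cone

variable {n : ℕ} {R : Type} [CommRing R] [IsLocalRing R] [Algebra ℂ R] {u : Fin (n + 1) → R}

theorem sub_const (h : Cone n R u) (G : MvPolynomial (Fin (n + 1)) ℂ) :
    aeval u G - algebraMap ℂ R (constantCoeff G) ∈ maximalIdeal R := by
  have h1 := P282.EQ.cpl_mem u h.span (k := 1) (p := G - C (constantCoeff G))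
    (by rw [pow_one, mem_vars]; simp)
  rwa [map_sub, aeval_C, pow_one] at h1

theorem unit (h : Cone n R u) {H : MvPolynomial (Fin (n + 1)) ℂ} (hH : constantCoeff H ≠ 0) :
    IsUnit (aeval u H) := by
  by_contra h1
  have h2 := sub_mem ((mem_maximalIdeal _).2 h1) (h.sub_const H)
  rw [sub_sub_cancel] at h2
  exact h2 ((IsUnit.mk0 _ hH).map (algebraMap ℂ R))

theorem const (h : Cone n R u) (r : R) : ∃ c : ℂ, r - algebraMap ℂ R c ∈ maximalIdeal R := by
  obtain ⟨G, -, H, hH, e⟩ := h.pow 0 r (by simp)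
  refine ⟨constantCoeff G / constantCoeff H,
    ((maximalIdeal R).mul_unit_mem_iff_mem (h.unit hH)).1 ?_⟩
  have e1 : (r - algebraMap ℂ R (constantCoeff G / constantCoeff H)) * aeval u H =
      (aeval u G - algebraMap ℂ R (constantCoeff G)) -
      algebraMap ℂ R (constantCoeff G / constantCoeff H) *
        (aeval u H - algebraMap ℂ R (constantCoeff H)) := by
    rw [sub_mul, e, mul_sub, ← map_mul, div_mul_cancel₀ _ hH]
    ring
  rw [e1]
  exact sub_mem (h.sub_const G) (Ideal.mul_mem_left _ _ (h.sub_const H))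

theorem res (h : Cone n R u) : Function.Surjective (algebraMap ℂ (ResidueField R)) := by
  intro y
  obtain ⟨r, rfl⟩ := residue_surjective y
  obtain ⟨c, hc⟩ := h.const r
  rw [← residue_eq_zero_iff, map_sub, sub_eq_zero] at hc
  exact ⟨c, hc.symm⟩

theorem hker (h : Cone n R u) (G : MvPolynomial (Fin (n + 1)) ℂ) (k : ℕ)
    (hG : aeval u G ∈ maximalIdeal R ^ k) :
    G ∈ Ideal.span {qq (n + 1)} ⊔ idealOfVars (Fin (n + 1)) ℂ ^ k := by
  obtain ⟨G', hG', H, hH, e⟩ := h.pow k _ hG
  have h1 : G * H ∈ Ideal.span {qq (n + 1)} ⊔ idealOfVars (Fin (n + 1)) ℂ ^ k := by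
    have h2 : G * H - G' ∈ Ideal.span {qq (n + 1)} :=
      Ideal.mem_span_singleton.2 ((h.ker _).1 (by rw [map_sub, map_mul, e, sub_self]))
    simpa using add_mem (Ideal.mem_sup_left h2) (Ideal.mem_sup_right hG')
  have h2 : Ideal.span {H} ⊔ idealOfVars (Fin (n + 1)) ℂ ^ k = ⊤ := by
    refine Ideal.sup_pow_eq_top ?_
    rw [sup_comm]
    exact (P282.CV.odpJet_vars_isMaximal (n + 1)).1.2 _ (left_lt_sup.2 fun h3 =>
      hH (mem_vars.1 (h3 (Ideal.mem_span_singleton_self H))))
  obtain ⟨a, ha, b, hb, e1⟩ := Submodule.mem_sup.1 ((Ideal.eq_top_iff_one _).1 h2)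
  obtain ⟨c, rfl⟩ := Ideal.mem_span_singleton'.1 ha
  have e2 : G = c * (G * H) + G * b := by linear_combination (-G) * e1
  rw [e2]
  exact add_mem (Ideal.mul_mem_left _ _ h1) (Ideal.mem_sup_right (Ideal.mul_mem_left _ _ hb))

theorem noeth (h : Cone n R u) : IsNoetherianRing R :=
  have := h.ess
  Algebra.EssFiniteType.isNoetherianRing ℂ R

theorem odp (h : Cone n R u) : IsODP R n := by
  have := h.noeth
  refine P282.EQ.isODP_of h.res u h.span ((h.ker _).2 dvd_rfl) h.hker 1 Matrix.isSymm_one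
    (by simp) fun e _ => ?_
  congr 1
  refine Finset.sum_congr rfl fun i _ => ?_
  rw [Finset.sum_eq_single i]
  · simp [sq]
  · intro j _ hj
    simp [Matrix.one_apply_ne hj.symm]
  · simp

theorem li (h : Cone n R u) {c : Fin (n + 1) → R} (hc : ∑ i, c i * u i ∈ maximalIdeal R ^ 2)
    (i : Fin (n + 1)) : c i ∈ maximalIdeal R := by
  choose γ hγ using fun i => h.const (c i)
  have hu : ∀ i, u i ∈ maximalIdeal R := fun i => h.span ▸ Ideal.subset_span ⟨i, rfl⟩
  have h1 : aeval u (∑ j, C (γ j) * X j : MvPolynomial (Fin (n + 1)) ℂ) ∈ maximalIdeal R ^ 2 := by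
    have h2 : ∑ j, (c j - algebraMap ℂ R (γ j)) * u j ∈ maximalIdeal R ^ 2 :=
      Submodule.sum_mem _ fun j _ => sq (maximalIdeal R) ▸ Ideal.mul_mem_mul (hγ j) (hu j)
    have h3 := sub_mem hc h2
    simpa only [← Finset.sum_sub_distrib, ← sub_mul, sub_sub_cancel, map_sum, map_mul, aeval_C,
      aeval_X] using h3
  have h2 := (sup_le ((Ideal.span_singleton_le_iff_mem _).2 (qq_mem _)) le_rfl) (h.hker _ 2 h1)
  have h3 := (mem_pow_idealOfVars_iff' _ _).1 h2 (Finsupp.single i 1) (by simp)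
  have h4 : γ i = 0 := by
    simpa [coeff_sum, coeff_C_mul, coeff_X, Finsupp.single_left_inj] using h3
  simpa [h4] using hγ i

theorem sing (h : Cone n R u) : ¬ IsRegularLocalRing R := by
  intro hr
  have := h.noeth
  have hu : ∀ i, u i ∈ maximalIdeal R := fun i => h.span ▸ Ideal.subset_span ⟨i, rfl⟩
  have h1 : LinearIndependent (ResidueField R)
      fun i => ((maximalIdeal R).toCotangent ⟨u i, hu i⟩ : CotangentSpace R) := by
    refine Fintype.linearIndependent_iff.2 fun c hc i => ?_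
    choose r hr using fun i => residue_surjective (c i)
    rw [← hr, residue_eq_zero_iff]
    refine h.li ?_ i
    have h2 : (maximalIdeal R).toCotangent (∑ i, r i • ⟨u i, hu i⟩) = 0 := by
      rw [map_sum, ← hc]
      refine Finset.sum_congr rfl fun i _ => ?_
      rw [map_smul, ← hr]
      rfl
    simpa using (Ideal.toCotangent_eq_zero _ _).1 h2
  have h2 := h1.fintype_card_le_finrank
  rw [← spanFinrank_maximalIdeal_eq_finrank_cotangentSpace, Fintype.card_fin] at h2
  have h3 := hr.spanFinrank_maximalIdeal.le.trans h.dim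
  have h4 : (maximalIdeal R).spanFinrank ≤ n := by exact_mod_cast h3
  omega

theorem sum_sq (h : Cone n R u) : ∑ i, u i ^ 2 = 0 := by
  simpa [qq] using (h.ker _).2 dvd_rfl

theorem tb [IsDomain R] (h : Cone n R u) (i : Fin (n + 1)) :
    IsTranscendenceBasis ℂ fun j : Fin n => u (i.succAbove j) := by
  have h1 : AlgebraicIndependent ℂ fun j : Fin n => u (i.succAbove j) := by
    refine algebraicIndependent_iff.2 fun p hp => ?_
    let Ω := AlgebraicClosure (FractionRing (MvPolynomial (Fin n) ℂ))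
    let ι : MvPolynomial (Fin n) ℂ →ₐ[ℂ] Ω := IsScalarTower.toAlgHom ℂ _ Ω
    have hι : Function.Injective ι := (algebraMap (FractionRing (MvPolynomial (Fin n) ℂ))
      Ω).injective.comp (IsFractionRing.injective (MvPolynomial (Fin n) ℂ) _)
    obtain ⟨s, hs⟩ := IsAlgClosed.exists_pow_nat_eq (-ι (qq n)) two_pos
    obtain ⟨c, hc⟩ := (h.ker (rename i.succAbove p)).1 (by rw [aeval_rename]; exact hp)
    have h2 := congrArg (aeval (i.insertNth s fun j => ι (X j) : Fin (n + 1) → Ω)) hc
    have h3 : aeval (i.insertNth s fun j => ι (X j) : Fin (n + 1) → Ω) (qq (n + 1)) = 0 := by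
      rw [qq, Fin.sum_univ_succAbove _ i]
      simp [hs, qq]
    have h4 : (i.insertNth s fun j => ι (X j) : Fin (n + 1) → Ω) ∘ i.succAbove = ι ∘ X := by
      funext j
      simp
    rw [map_mul, h3, zero_mul, aeval_rename, h4, ← aeval_unique] at h2
    exact (map_eq_zero_iff ι hι).1 h2
  refine h1.isTranscendenceBasis_iff_isAlgebraic.2 ⟨fun r => ?_⟩
  set T := Algebra.adjoin ℂ (Set.range fun j : Fin n => u (i.succAbove j))
  have hT : ∀ a ∈ T, IsAlgebraic T a := fun a ha => isAlgebraic_algebraMap (⟨a, ha⟩ : T)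
  have hy : ∀ j, u (i.succAbove j) ∈ T := fun j => Algebra.subset_adjoin ⟨j, rfl⟩
  have h2 : ∀ j, IsAlgebraic T (u j) := by
    intro j
    obtain rfl | ⟨j, rfl⟩ := Fin.eq_self_or_eq_succAbove i j
    · refine .of_pow two_pos (hT _ ?_)
      have h3 := h.sum_sq
      rw [Fin.sum_univ_succAbove _ j] at h3
      rw [eq_neg_of_add_eq_zero_left h3]
      exact neg_mem (sum_mem fun l _ => pow_mem (hy l) 2)
    · exact hT _ (hy j)
  have h3 : ∀ G : MvPolynomial (Fin (n + 1)) ℂ, IsAlgebraic T (aeval u G) := by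
    intro G
    induction G using MvPolynomial.induction_on with
    | C a => rw [aeval_C]; exact hT _ (T.algebraMap_mem a)
    | add p q hp hq => rw [map_add]; exact hp.add hq
    | mul_X p j hp => rw [map_mul, aeval_X]; exact hp.mul (h2 j)
  obtain ⟨G, -, H, hH, e⟩ := h.pow 0 r (by simp)
  exact .of_mul (h.unit hH).mem_nonZeroDivisors (h3 H) (by rw [mul_comm, e]; exact h3 G)

end Vale.Agent.P282W.Cone
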