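import Vale.Agent.P282W.Quad
import Vale.Agent.P282.Bd3.B11

/-!
P282W: the local ring of the quadric cone at its vertex
-/

open MvPolynomial IsLocalRing

namespace Vale.Agent.P282W

/-- The sum of the squares of the variables. -/
noncomputable def qq (n : ℕ) : MvPolynomial (Fin n) ℂ := ∑ i, X i ^ 2

theorem mem_vars {n : ℕ} {p : MvPolynomial (Fin n) ℂ} :
    p ∈ idealOfVars (Fin n) ℂ ↔ constantCoeff p = 0 := by
  rw [← pow_one (idealOfVars (Fin n) ℂ), mem_pow_idealOfVars_iff', constantCoeff_eq]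
  refine ⟨fun h => h 0 (by simp), fun h x hx => ?_⟩
  rwa [(Finsupp.degree_eq_zero_iff x).1 (by omega : x.degree = 0)]

theorem qq_mem (n : ℕ) : qq n ∈ idealOfVars (Fin n) ℂ ^ 2 :=
  Submodule.sum_mem _ fun i _ => Ideal.pow_mem_pow (Ideal.subset_span (Set.mem_range_self i)) 2

theorem two_unit (n : ℕ) : IsUnit (2 : MvPolynomial (Fin n) ℂ) := by
  have := (IsUnit.mk0 (2 : ℂ) two_ne_zero).map (C : ℂ →+* MvPolynomial (Fin n) ℂ)
  rwa [map_ofNat] at this

theorem sqfree {n : ℕ} (hn : 2 ≤ n) : Squarefree (qq n) := by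
  rintro x ⟨c, hc⟩
  have key : ∀ i : Fin n, x ∣ X i := by
    intro i
    have h1 : pderiv i (qq n) = 2 * X i := by
      rw [qq, map_sum, Finset.sum_eq_single i]
      · simp
      · intro j _ hj
        simp [hj]
      · simp
    refine (two_unit n).dvd_mul_left.1 ⟨2 * c * pderiv i x + x * pderiv i c, ?_⟩
    rw [← h1, hc]
    simp only [Derivation.leibniz, smul_eq_mul]
    ring
  obtain ⟨e, he⟩ := key ⟨0, by omega⟩
  refine (X_prime.irreducible.isUnit_or_isUnit he).resolve_right fun hu => ?_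
  have h1 : (X ⟨0, by omega⟩ : MvPolynomial (Fin n) ℂ) ∣ X ⟨1, by omega⟩ := by
    rw [he]
    exact hu.mul_right_dvd.2 (key _)
  simpa using X_dvd_X.1 h1

/-- `R` is the local ring of the quadric cone at the vertex, with coordinates `u`. -/
structure Cone (n : ℕ) (R : Type) [CommRing R] [IsLocalRing R] [Algebra ℂ R]
    (u : Fin (n + 1) → R) : Prop where
  ess : Algebra.EssFiniteType ℂ R
  normal : IsIntegrallyClosed R
  span : Ideal.span (Set.range u) = maximalIdeal R
  ker : ∀ G : MvPolynomial (Fin (n + 1)) ℂ, aeval u G = 0 ↔ qq (n + 1) ∣ G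
  pow : ∀ k, ∀ r ∈ maximalIdeal R ^ k, ∃ G ∈ idealOfVars (Fin (n + 1)) ℂ ^ k,
    ∃ H : MvPolynomial (Fin (n + 1)) ℂ, constantCoeff H ≠ 0 ∧ r * aeval u H = aeval u G
  dim : ringKrullDim R ≤ n

theorem cone_of {n : ℕ} {A : Type} [CommRing A] [IsDomain A] [IsIntegrallyClosed A] [Algebra ℂ A]
    (π : MvPolynomial (Fin (n + 1)) ℂ →ₐ[ℂ] A) (hπ : Function.Surjective π)
    (hk : ∀ G, π G = 0 ↔ qq (n + 1) ∣ G) (hq : qq (n + 1) ≠ 0) :
    ∃ (R : Type) (_ : CommRing R) (_ : IsDomain R) (_ : IsLocalRing R) (_ : Algebra ℂ R)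
      (u : Fin (n + 1) → R), Cone n R u := by
  have hmax := P282.CV.odpJet_vars_isMaximal (n + 1)
  have hker : RingHom.ker π ≤ idealOfVars (Fin (n + 1)) ℂ := fun G hG => by
    obtain ⟨c, rfl⟩ := (hk G).1 hG
    exact Ideal.mul_mem_right _ _ (Ideal.pow_le_self two_ne_zero (qq_mem _))
  have hp : ((idealOfVars (Fin (n + 1)) ℂ).map π).IsPrime :=
    Ideal.map_isPrime_of_surjective hπ hker
  have hft : Algebra.FiniteType ℂ A := Algebra.FiniteType.of_surjective π hπ
  let R := Localization.AtPrime ((idealOfVars (Fin (n + 1)) ℂ).map π)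
  have hinj : Function.Injective (algebraMap A R) :=
    IsLocalization.injective _ ((idealOfVars (Fin (n + 1)) ℂ).map π).primeCompl_le_nonZeroDivisors
  have hev : ∀ G, aeval (fun i => algebraMap A R (π (X i))) G = algebraMap A R (π G) := fun G => by
    have := aeval_unique ((IsScalarTower.toAlgHom ℂ A R).comp π)
    exact (congrArg (fun f => f G) this).symm
  refine ⟨R, inferInstance, inferInstance, inferInstance, inferInstance,
    fun i => algebraMap A R (π (X i)), ?_,
    isIntegrallyClosed_of_isLocalization _ _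
      ((idealOfVars (Fin (n + 1)) ℂ).map π).primeCompl_le_nonZeroDivisors, ?_,
    fun G => ?_, fun k r hr => ?_, ?_⟩
  · have := Algebra.EssFiniteType.of_isLocalization R
      ((idealOfVars (Fin (n + 1)) ℂ).map π).primeCompl
    exact Algebra.EssFiniteType.comp ℂ A R
  · have h1 : (idealOfVars (Fin (n + 1)) ℂ).map π = Ideal.span (Set.range fun i => π (X i)) := by
      rw [idealOfVars, Ideal.map_span, ← Set.range_comp]
      rfl
    refine Eq.trans ?_ Localization.AtPrime.map_eq_maximalIdeal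
    refine Eq.trans ?_ (congrArg (Ideal.map (algebraMap A R)) h1.symm)
    exact ((Ideal.map_span _ _).trans (congrArg _ (Set.range_comp _ _).symm)).symm
  · rw [hev, map_eq_zero_iff _ hinj, hk]
  · rw [← Localization.AtPrime.map_eq_maximalIdeal, ← Ideal.map_pow, ← Ideal.map_pow,
      IsLocalization.mem_map_algebraMap_iff
        ((idealOfVars (Fin (n + 1)) ℂ).map π).primeCompl] at hr
    obtain ⟨⟨⟨x, hx⟩, s, hs⟩, e⟩ := hr
    obtain ⟨G, hG, rfl⟩ := (Ideal.mem_map_iff_of_surjective π hπ).1 hx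
    obtain ⟨H, rfl⟩ := hπ s
    exact ⟨G, hG, H, fun h0 => hs (Ideal.mem_map_of_mem _ (mem_vars.2 h0)), by
      rw [hev, hev]; exact e⟩
  · rw [IsLocalization.AtPrime.ringKrullDim_eq_height ((idealOfVars (Fin (n + 1)) ℂ).map π) R]
    refine Ideal.height_le_ringKrullDim_of_isPrime.trans ?_
    have h1 := ringKrullDim_succ_le_of_surjective π.toRingHom hπ
      (mem_nonZeroDivisors_of_ne_zero hq) ((hk _).2 dvd_rfl)
    rw [MvPolynomial.ringKrullDim_of_isNoetherianRing, ringKrullDim_eq_zero_of_field, zero_add,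
      Nat.card_eq_fintype_card, Fintype.card_fin, Nat.cast_add_one] at h1
    exact ENat.WithBot.add_le_add_one_right_iff.1 h1

theorem exists_cone {n : ℕ} (hn : 2 ≤ n) :
    ∃ (R : Type) (_ : CommRing R) (_ : IsDomain R) (_ : IsLocalRing R) (_ : Algebra ℂ R)
      (u : Fin (n + 1) → R), Cone n R u := by
  obtain ⟨h1, h2⟩ := quad (two_unit n) (sqfree hn) fun h => by
    have := h.map constantCoeff
    rw [mem_vars.1 (Ideal.pow_le_self two_ne_zero (qq_mem n))] at this
    exact not_isUnit_zero this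
  have e : finSuccEquiv ℂ n (qq (n + 1)) = Polynomial.X ^ 2 + Polynomial.C (qq n) := by
    simp only [qq, Fin.sum_univ_succ, map_add, map_sum, map_pow, finSuccEquiv_X_zero,
      finSuccEquiv_X_succ]
  refine cone_of (((Polynomial.aeval (AdjoinRoot.root (Polynomial.X ^ 2 + Polynomial.C
    (qq n)))).restrictScalars ℂ).comp (finSuccEquiv ℂ n).toAlgHom) (fun x => ?_) (fun G => ?_)
    (sqfree (by omega)).ne_zero
  · obtain ⟨p, rfl⟩ := AdjoinRoot.mk_surjective x
    refine ⟨(finSuccEquiv ℂ n).symm p, ?_⟩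
    change Polynomial.aeval _ (finSuccEquiv ℂ n ((finSuccEquiv ℂ n).symm p)) = _
    rw [AlgEquiv.apply_symm_apply, AdjoinRoot.aeval_eq]
  · change Polynomial.aeval _ (finSuccEquiv ℂ n G) = 0 ↔ _
    rw [AdjoinRoot.aeval_eq, AdjoinRoot.mk_eq_zero, ← e, map_dvd_iff]

end Vale.Agent.P282W
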