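import Vale.Agent.P282Y.Txt

/-!
P282: the volume of a valuation as a limit
-/

open scoped NNReal ENNReal Nat
open IsLocalRing Filter Vale.Agent.P282.Gap Vale.Agent.P282Y

noncomputable section

namespace Vale.Agent.P282W

variable (R : Type) {K : Type} [CommRing R] [IsDomain R] [IsLocalRing R] [Algebra ℂ R]
  [Field K] [Algebra ℂ K] [Algebra R K]

/-- `n! ℓ(R / 𝔞_t(v)) / t ^ n` for a real number `t`. -/
def ratio (n : ℕ) (v : Valuation K ℝ≥0) (t : ℝ) : ℝ≥0∞ :=
  (n ! : ℝ≥0∞) * (Module.length R (R ⧸ valIdeal R v t) : ℝ≥0∞) / ENNReal.ofReal t ^ n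

/-- The volume of the real valuation `- log v`: the limit of `ratio` as `t → ∞`. -/
def volume (n : ℕ) (v : Valuation K ℝ≥0) : ℝ≥0∞ := limUnder atTop (ratio R n v)

/-- For every real valuation centered at the closed point, `𝔞_t(v) = {f : ord f ≥ t}` and the limit
which defines the volume exists and is finite. -/
def LimitExists (K : Type) [Field K] [Algebra R K] (n : ℕ) : Prop :=
  ∀ v : Valuation K ℝ≥0, HasCenter R v (maximalIdeal R) →
    (∀ (t : ℝ) (f : R), f ∈ valIdeal R v t ↔ (v (algebraMap R K f) : ℝ) ≤ Real.exp (-t)) ∧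
    Tendsto (ratio R n v) atTop (nhds (volume R n v)) ∧ volume R n v ≠ ⊤

/-- The normalized volume: the infimum of `A(v) ^ n * vol(v)` over the real valuations centered at
the closed point, those with `A(v) = ∞` contributing `∞`. -/
def nvolume (n r : ℕ) (ω : (Fin n → Derivation ℂ K K) → K) : ℝ≥0∞ :=
  ⨅ (v : Valuation K ℝ≥0) (_ : HasCenter R v (maximalIdeal R)),
    if logDiscr R n r ω v = ⊤ then ⊤ else logDiscr R n r ω v ^ n * volume R n v

end Vale.Agent.P282W
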