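import Vale.Agent.P282Y.All
import Vale.Agent.P282.Bd3.B11

/-!
P282W: a local ring with a frame embeds in the ring of formal power series
-/

open IsLocalRing MvPolynomial Vale.Agent.P282.EQ

namespace Vale.Agent.P282W

variable {S : Type} [CommRing S] [IsLocalRing S] [Algebra ℂ S] {n : ℕ} {y : Fin n → S}
  {d : Fin n → Derivation ℂ S S}

omit [IsLocalRing S] in
theorem der_aeval (hd : ∀ i j, d i (y j) = if i = j then 1 else 0) (i : Fin n)
    (G : MvPolynomial (Fin n) ℂ) : d i (aeval y G) = aeval y (pderiv i G) := by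
  induction G using MvPolynomial.induction_on with
  | C a => simp
  | add p q hp hq => simp [hp, hq]
  | mul_X p j h =>
    simp only [map_mul, aeval_X, Derivation.leibniz, h, hd, pderiv_X, smul_eq_mul, map_add,
      Pi.single_apply]
    by_cases hij : i = j
    · simp [hij]
    · simp [hij, Ne.symm hij]

theorem coeff_zero (hy : Ideal.span (Set.range y) = maximalIdeal S)
    (hd : ∀ i j, d i (y j) = if i = j then 1 else 0) (k : ℕ) : ∀ G : MvPolynomial (Fin n) ℂ,
    aeval y G ∈ maximalIdeal S ^ k → ∀ e : Fin n →₀ ℕ, e.degree < k → coeff e G = 0 := by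
  induction k with
  | zero => exact fun _ _ _ h => absurd h (Nat.not_lt_zero _)
  | succ k ih =>
    intro G hG e he
    by_cases h0 : e = 0
    · subst h0
      have h1 : G - C (coeff 0 G) ∈ idealOfVars (Fin n) ℂ ^ 1 :=
        (mem_pow_idealOfVars_iff' _ _).2 fun x hx => by
          have : x = 0 := (Finsupp.degree_eq_zero_iff x).1 (by omega)
          simp [this]
      have h2 := cpl_mem y hy h1
      rw [map_sub, aeval_C, pow_one] at h2
      have h3 : algebraMap ℂ S (coeff 0 G) ∈ maximalIdeal S := by
        have := sub_mem (Ideal.pow_le_self k.succ_ne_zero hG) h2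
        rwa [sub_sub_cancel] at this
      by_contra h4
      exact h3 ((IsUnit.mk0 _ h4).map (algebraMap ℂ S))
    · obtain ⟨i, hi⟩ := Finsupp.ne_iff.1 h0
      have h1 : e = (e - Finsupp.single i 1) + Finsupp.single i 1 :=
        (tsub_add_cancel_of_le (Finsupp.single_le_iff.2 (Nat.pos_of_ne_zero hi))).symm
      have h2 : (e - Finsupp.single i 1).degree < k := by
        have := congrArg Finsupp.degree h1
        rw [map_add, Finsupp.degree_single] at this
        omega
      have h3 := ih (pderiv i G) (by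
        rw [← der_aeval hd]
        exact P282Y.Eul.der_pow _ _ _ _ hG) _ h2
      rw [coeff_pderiv, ← h1] at h3
      exact (mul_eq_zero.1 h3).resolve_right (Nat.cast_add_one_ne_zero _)

theorem emb [IsNoetherianRing S] (hres : Function.Surjective (algebraMap ℂ (ResidueField S)))
    (hy : Ideal.span (Set.range y) = maximalIdeal S)
    (hd : ∀ i j, d i (y j) = if i = j then 1 else 0) :
    ∃ φ : S →ₐ[ℂ] MvPowerSeries (Fin n) ℂ, Function.Injective φ ∧
      ∀ i, φ (y i) = MvPowerSeries.X i := by
  have hinj : Function.Injective (cplPhi y hy) := by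
    refine (injective_iff_map_eq_zero _).2 fun G hG => MvPowerSeries.ext fun e => ?_
    have h1 := coeff_zero hy hd _ _ ((cplPhi_eq_zero_iff y hy G).1 hG (e.degree + 1)) e
      (Nat.lt_succ_self _)
    rwa [MvPowerSeries.coeff_truncTotal _ (Nat.lt_succ_self _)] at h1
  let Φ := AlgEquiv.ofBijective (cplPhi y hy) ⟨hinj, cplPhi_surjective hres y hy⟩
  refine ⟨Φ.symm.toAlgHom.comp (IsScalarTower.toAlgHom ℂ S _),
    Φ.symm.injective.comp (AdicCompletion.of_injective (maximalIdeal S) S), fun i => ?_⟩
  refine Φ.symm_apply_eq.2 (AdicCompletion.ext_evalₐ fun k => ?_)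
  change AdicCompletion.evalₐ _ k (algebraMap S _ (y i)) = AdicCompletion.evalₐ _ k (cplPhi y hy _)
  rw [cplPhi_eval, cplEv_apply, AlgHom.commutes, eq_comm]
  refine Ideal.Quotient.eq.2 ?_
  have h1 := cpl_mem y hy (cpl_trunc_sub (X i) k)
  rwa [map_sub, aeval_X, coe_X] at h1

end Vale.Agent.P282W
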