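import Mathlib

/-!
P282W: leading exponents of power series, and the growth of an affine algebra
-/

open Module

namespace Vale.Agent.P282W

section leaf

open MvPowerSeries

variable {n : ℕ}

/-- The leading exponents of a space of power series. -/
def Ld (W : Submodule ℂ (MvPowerSeries (Fin n) ℂ)) : Set (Fin n →₀ ℕ) :=
  {e | ∃ f ∈ W, lexOrder f = toLex e}

theorem ld_card (k : ℕ) : ∀ (W : Submodule ℂ (MvPowerSeries (Fin n) ℂ)) [FiniteDimensional ℂ W],
    finrank ℂ W = k → (Ld W).Finite ∧ (Ld W).ncard = k := by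
  induction k with
  | zero =>
    intro W _ hW
    have h0 : Ld W = ∅ := by
      rw [Submodule.finrank_eq_zero] at hW
      subst hW
      ext e
      simp [Ld]
    simp [h0]
  | succ k ih =>
    intro W _ hW
    have hne : W ≠ ⊥ := by
      rintro rfl
      simp at hW
    obtain ⟨f, hf, hf0⟩ := Submodule.exists_mem_ne_zero_of_ne_bot hne
    obtain ⟨e, he⟩ := exists_finsupp_eq_lexOrder_of_ne_zero hf0
    obtain ⟨e₀, ⟨f₀, hf₀, he₀⟩, hmin⟩ := (InvImage.wf (toLex : (Fin n →₀ ℕ) → _)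
      (wellFounded_lt (α := Lex (Fin n →₀ ℕ)))).has_min (Ld W) ⟨e, f, hf, he⟩
    let φ : Module.Dual ℂ W := (coeff e₀).domRestrict W
    have hφ : φ ≠ 0 := fun h0 => coeff_ne_zero_of_lexOrder he₀.symm (by
      have := LinearMap.congr_fun h0 ⟨f₀, hf₀⟩
      exact this)
    have hk := Module.Dual.finrank_ker_add_one_of_ne_zero hφ
    have hmem : ∀ g, g ∈ (LinearMap.ker φ).map W.subtype ↔ g ∈ W ∧ coeff e₀ g = 0 := by
      intro g
      constructor
      · rintro ⟨g, hg, rfl⟩
        exact ⟨g.2, hg⟩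
      · rintro ⟨h1, h2⟩
        exact ⟨⟨g, h1⟩, h2, rfl⟩
    obtain ⟨h1, h2⟩ := ih ((LinearMap.ker φ).map W.subtype)
      (by rw [Submodule.finrank_map_subtype_eq]; omega)
    have h3 : Ld W = insert e₀ (Ld ((LinearMap.ker φ).map W.subtype)) := by
      ext e
      constructor
      · rintro ⟨g, hg, hge⟩
        by_cases hee : e = e₀
        · exact Or.inl hee
        · refine Or.inr ⟨g, (hmem g).2 ⟨hg, coeff_eq_zero_of_lt_lexOrder ?_⟩, hge⟩
          rw [hge, WithTop.coe_lt_coe]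
          exact lt_of_le_of_ne (not_lt.1 (hmin e ⟨g, hg, hge⟩))
            fun h => hee (toLex.injective h).symm
      · rintro (rfl | ⟨g, hg, hge⟩)
        · exact ⟨f₀, hf₀, he₀⟩
        · exact ⟨g, ((hmem g).1 hg).1, hge⟩
    have h4 : e₀ ∉ Ld ((LinearMap.ker φ).map W.subtype) := by
      rintro ⟨g, hg, hge⟩
      exact coeff_ne_zero_of_lexOrder hge.symm ((hmem g).1 hg).2
    rw [h3]
    exact ⟨h1.insert _, by rw [Set.ncard_insert_of_notMem h4 h1, h2]⟩

theorem lex_mon (e : Fin n →₀ ℕ) : lexOrder (monomial e (1 : ℂ)) = toLex e := by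
  refine le_antisymm (lexOrder_le_of_coeff_ne_zero (by simp)) (le_lexOrder_iff.2 fun d hd => ?_)
  rw [WithTop.coe_lt_coe] at hd
  exact coeff_monomial_ne (fun h => hd.ne (by rw [h])) _

end leaf

section grow

open MvPolynomial

theorem finrank_deg (s m : ℕ) : finrank ℂ (restrictTotalDegree (Fin s) ℂ m) ≤ (m + 1) ^ s := by
  refine (Submodule.finrank_mono (restrictTotalDegree_le_restrictDegree (Fin s) ℂ m)).trans ?_
  rw [restrictDegree, finrank_eq_nat_card_basis (basisRestrictSupport ℂ _)]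
  have h := Nat.card_le_card_of_injective
    (fun (e : {e : Fin s →₀ ℕ | ∀ i, e i ≤ m}) (i : Fin s) =>
      (⟨e.1 i, Nat.lt_succ_of_le (e.2 i)⟩ : Fin (m + 1)))
    fun e e' h => Subtype.ext (Finsupp.ext fun i => congrArg Fin.val (congrFun h i))
  simpa using h

/-- The span of the monomials of degree at most `k`. -/
noncomputable def V {B : Type} [CommRing B] [Algebra ℂ B] {N : ℕ} (z : Fin N → B) (k : ℕ) :
    Submodule ℂ B :=
  (restrictTotalDegree (Fin N) ℂ k).map (aeval z : MvPolynomial (Fin N) ℂ →ₐ[ℂ] B).toLinearMap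

variable {B : Type} [CommRing B] [Algebra ℂ B] {N : ℕ} {z : Fin N → B}

theorem mem_V {k : ℕ} {f : B} :
    f ∈ V z k ↔ ∃ p : MvPolynomial (Fin N) ℂ, totalDegree p ≤ k ∧ aeval z p = f :=
  ⟨fun ⟨p, h1, h2⟩ => ⟨p, (mem_restrictTotalDegree _ _ _).1 h1, h2⟩,
    fun ⟨p, h1, h2⟩ => ⟨p, (mem_restrictTotalDegree _ _ _).2 h1, h2⟩⟩

theorem fin_V (z : Fin N → B) (k : ℕ) : FiniteDimensional ℂ (V z k) := by
  unfold V
  infer_instance

theorem V_mul {k l : ℕ} {f g : B} (hf : f ∈ V z k) (hg : g ∈ V z l) : f * g ∈ V z (k + l) := by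
  obtain ⟨p, h1, rfl⟩ := mem_V.1 hf
  obtain ⟨q, h2, rfl⟩ := mem_V.1 hg
  exact mem_V.2 ⟨p * q, (totalDegree_mul p q).trans (add_le_add h1 h2), map_mul _ _ _⟩

theorem V_mono {k l : ℕ} (h : k ≤ l) : V z k ≤ V z l := fun _ hf =>
  let ⟨p, h1, h2⟩ := mem_V.1 hf
  mem_V.2 ⟨p, h1.trans h, h2⟩

theorem V_one : (1 : B) ∈ V z 0 := mem_V.2 ⟨1, by simp, map_one _⟩

theorem V_gen (j : Fin N) : z j ∈ V z 1 := mem_V.2 ⟨X j, by simp, by simp⟩

theorem V_pow (j : Fin N) (k : ℕ) : z j ^ k ∈ V z k := by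
  induction k with
  | zero => simpa using V_one
  | succ k ih => rw [pow_succ]; exact V_mul ih (V_gen j)

theorem grow0 {s : ℕ} (g : MvPolynomial (Fin s) ℂ →ₐ[ℂ] B) (hg : g.Finite) (z : Fin N → B) :
    ∃ C : ℕ, ∀ k, finrank ℂ (V z k) ≤ C * (k + 1) ^ s := by
  classical
  let _ := g.toRingHom.toAlgebra
  have : Module.Finite (MvPolynomial (Fin s) ℂ) B := hg
  obtain ⟨r, a, ha⟩ := Module.Finite.exists_fin (R := MvPolynomial (Fin s) ℂ) (M := B)
  have hex : ∀ y : B, ∃ p : Fin r → MvPolynomial (Fin s) ℂ, ∑ l, g (p l) * a l = y := fun y =>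
    (Submodule.mem_span_range_iff_exists_fun _).1 (ha ▸ Submodule.mem_top)
  choose P hP using hex
  let T : (m : ℕ) → (Fin r → restrictTotalDegree (Fin s) ℂ m) →ₗ[ℂ] B := fun m =>
    ∑ l, (LinearMap.mulRight ℂ (a l)).comp
      (g.toLinearMap.comp ((Submodule.subtype _).comp (LinearMap.proj l)))
  have hT : ∀ m y, y ∈ LinearMap.range (T m) ↔
      ∃ p : Fin r → MvPolynomial (Fin s) ℂ, (∀ l, totalDegree (p l) ≤ m) ∧
        ∑ l, g (p l) * a l = y := by
    intro m y
    constructor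
    · rintro ⟨p, rfl⟩
      exact ⟨fun l => p l, fun l => (mem_restrictTotalDegree _ _ _).1 (p l).2, by simp [T]⟩
    · rintro ⟨p, h1, rfl⟩
      exact ⟨fun l => ⟨p l, (mem_restrictTotalDegree _ _ _).2 (h1 l)⟩, by simp [T]⟩
  set D := ∑ l, totalDegree (P 1 l) + ∑ j, ∑ l, ∑ l', totalDegree (P (z j * a l) l') with hD
  have hD1 : ∀ l, totalDegree (P 1 l) ≤ D := fun l =>
    (Finset.single_le_sum (f := fun l => totalDegree (P 1 l)) (fun _ _ => Nat.zero_le _)
      (Finset.mem_univ l)).trans (Nat.le_add_right _ _)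
  have hD2 : ∀ j l l', totalDegree (P (z j * a l) l') ≤ D := fun j l l' =>
    ((Finset.single_le_sum (f := fun l' => totalDegree (P (z j * a l) l'))
      (fun _ _ => Nat.zero_le _) (Finset.mem_univ l')).trans
      ((Finset.single_le_sum (f := fun l => ∑ l', totalDegree (P (z j * a l) l'))
        (fun _ _ => Nat.zero_le _) (Finset.mem_univ l)).trans
      (Finset.single_le_sum (f := fun j => ∑ l, ∑ l', totalDegree (P (z j * a l) l'))
        (fun _ _ => Nat.zero_le _) (Finset.mem_univ j)))).trans (Nat.le_add_left _ _)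
  have h1 : ∀ j m y, y ∈ LinearMap.range (T m) → z j * y ∈ LinearMap.range (T (m + D)) := by
    intro j m y hy
    obtain ⟨p, hp, rfl⟩ := (hT _ _).1 hy
    rw [Finset.mul_sum]
    refine Submodule.sum_mem _ fun l _ => (hT _ _).2 ⟨fun l' => p l * P (z j * a l) l',
      fun l' => (totalDegree_mul _ _).trans (add_le_add (hp l) (hD2 j l l')), ?_⟩
    simp only [map_mul, mul_assoc]
    rw [← Finset.mul_sum, hP]
    ring
  have h2 : ∀ j c m y, y ∈ LinearMap.range (T m) →
      z j ^ c * y ∈ LinearMap.range (T (m + c * D)) := by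
    intro j c m y hy
    induction c with
    | zero => rwa [pow_zero, one_mul, zero_mul, add_zero]
    | succ c ih =>
      rw [pow_succ', mul_assoc, add_mul, one_mul, ← add_assoc]
      exact h1 j _ _ ih
  have h3 : ∀ (e : Fin N → ℕ) (t : Finset (Fin N)),
      ∏ i ∈ t, z i ^ e i ∈ LinearMap.range (T (D + (∑ i ∈ t, e i) * D)) := by
    intro e t
    induction t using Finset.induction_on with
    | empty =>
      rw [Finset.prod_empty, Finset.sum_empty, zero_mul, add_zero]
      exact (hT D 1).2 ⟨P 1, hD1, hP 1⟩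
    | insert i t hi ih =>
      rw [Finset.prod_insert hi, Finset.sum_insert hi, add_comm (e i), add_mul, ← add_assoc]
      exact h2 i _ _ _ ih
  have h4 : ∀ k, V z k ≤ LinearMap.range (T (D + k * D)) := by
    intro k f hf
    obtain ⟨p, hp, rfl⟩ := mem_V.1 hf
    rw [p.as_sum, map_sum]
    refine Submodule.sum_mem _ fun e he => ?_
    rw [aeval_monomial, ← Algebra.smul_def]
    refine Submodule.smul_mem _ _ ?_
    obtain ⟨q, hq, hq'⟩ := (hT _ _).1 (h3 e e.support)
    have h5 : ∑ i ∈ e.support, e i ≤ k := (le_totalDegree he).trans hp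
    exact (hT _ _).2 ⟨q, fun l => (hq l).trans (by gcongr), hq'⟩
  refine ⟨r * (D + 1) ^ s, fun k => (Submodule.finrank_mono (h4 k)).trans
    ((LinearMap.finrank_range_le _).trans ?_)⟩
  rw [finrank_pi_fintype, Finset.sum_const, Finset.card_univ, Fintype.card_fin, smul_eq_mul,
    mul_assoc, ← mul_pow]
  refine Nat.mul_le_mul_left _ ((finrank_deg _ _).trans (Nat.pow_le_pow_left ?_ _))
  nlinarith

theorem grow [Nontrivial B] {n : ℕ} (hn : Algebra.trdeg ℂ B = n) (z : Fin N → B) :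
    ∃ C : ℕ, ∀ k, finrank ℂ (V z k) ≤ C * (k + 1) ^ n := by
  let A := (aeval z : MvPolynomial (Fin N) ℂ →ₐ[ℂ] B).range
  have : Algebra.FiniteType ℂ A := Algebra.FiniteType.of_surjective
    (aeval z : MvPolynomial (Fin N) ℂ →ₐ[ℂ] B).rangeRestrict (AlgHom.rangeRestrict_surjective _)
  obtain ⟨s, g, hg, hfin⟩ := exists_finite_inj_algHom_of_fg ℂ A
  have hs : s ≤ n := by
    have h1 : AlgebraicIndependent ℂ fun i => (A.val.comp g) (X i) := by
      have h0 : Function.Injective (A.val.comp g) := Subtype.val_injective.comp hg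
      rw [aeval_unique (A.val.comp g)] at h0
      exact h0
    have h2 := h1.cardinalMk_le_trdeg
    rw [hn] at h2
    simpa using h2
  let z' : Fin N → A := fun j => ⟨z j, X j, by simp⟩
  obtain ⟨C, hC⟩ := grow0 g hfin z'
  refine ⟨C, fun k => ?_⟩
  have h3 : V z k = (V z' k).map A.val.toLinearMap := by
    rw [V, V, ← Submodule.map_comp, ← AlgHom.comp_toLinearMap, comp_aeval]
    rfl
  have := fin_V z' k
  rw [h3]
  refine (Submodule.finrank_map_le _ _).trans ((hC k).trans ?_)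
  exact Nat.mul_le_mul_left _ (Nat.pow_le_pow_right (Nat.succ_pos k) hs)

end grow

end Vale.Agent.P282W
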