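import Vale.Agent.P282W.Sg
import Vale.Agent.P282W.Grow
import Vale.Agent.P282W.Emb

/-!
P282W: asymptotic colengths of graded families of ideals (Lazarsfeld-Mustata, Cutkosky)
-/

open Filter Topology Module IsLocalRing

namespace Vale.Agent.P282W

section ok

open MvPowerSeries

variable {n : ℕ}

/-- Graded linear series of power series. -/
theorem ok (W : ℕ → Submodule ℂ (MvPowerSeries (Fin n) ℂ)) (hfin : ∀ k, FiniteDimensional ℂ (W k))
    (h1 : 1 ∈ W 0) (hmul : ∀ k l, ∀ f ∈ W k, ∀ g ∈ W l, f * g ∈ W (k + l)) {C : ℕ}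
    (hC : ∀ k, finrank ℂ (W k) ≤ C * (k + 1) ^ n) {a : MvPowerSeries (Fin n) ℂ} (ha : a ∈ W 1)
    (ha0 : a ≠ 0) {q : Fin n → MvPowerSeries (Fin n) ℂ} (hq0 : ∀ i, q i ≠ 0)
    (hq : ∀ i, q i ∈ W 1) (hq' : ∀ i, X i * q i ∈ W 1) :
    ∃ V : ℝ, Tendsto (fun k : ℕ => (finrank ℂ (W k) : ℝ) / (k : ℝ) ^ n) atTop (𝓝 V) := by
  let ι : (Fin n →₀ ℕ) → Fin n → ℤ := fun e i => e i
  have hι : Function.Injective ι := fun e e' h => Finsupp.ext fun i =>
    Nat.cast_injective (R := ℤ) (congrFun h i)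
  have hadd : ∀ e e', ι (e + e') = ι e + ι e' := fun e e' => funext fun i => by simp [ι]
  have hcard : ∀ k, (ι '' Ld (W k)).ncard = finrank ℂ (W k) := fun k => by
    rw [Set.ncard_image_of_injective _ hι, (ld_card _ (W k) rfl).2]
  obtain ⟨ea, hea⟩ := exists_finsupp_eq_lexOrder_of_ne_zero ha0
  choose eq heq using fun i => exists_finsupp_eq_lexOrder_of_ne_zero (hq0 i)
  have h : Sg (fun k => ι '' Ld (W k)) (ι ea) (fun i => ι (eq i)) C := by
    refine ⟨⟨0, ⟨1, h1, lex_mon 0⟩, rfl⟩, ?_, ⟨ea, ⟨a, ha, hea⟩, rfl⟩,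
      fun i => ⟨eq i, ⟨q i, hq i, heq i⟩, rfl⟩, fun i => ⟨Finsupp.single i 1 + eq i,
        ⟨_, hq' i, ?_⟩, ?_⟩, fun k => (ld_card _ (W k) rfl).1.image _,
      fun k => (hcard k).le.trans (hC k)⟩
    · rintro s t _ ⟨e, ⟨f, hf, hfe⟩, rfl⟩ _ ⟨e', ⟨g, hg, hge⟩, rfl⟩
      refine ⟨e + e', ⟨f * g, hmul _ _ _ hf _ hg, ?_⟩, hadd _ _⟩
      rw [lexOrder_mul, hfe, hge]
      rfl
    · rw [lexOrder_mul, heq, X, lex_mon]
      rfl
    · rw [hadd, add_comm]
      congr 1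
      funext j
      simp [ι, Finsupp.single_apply, Pi.single_apply, eq_comm]
  simpa only [hcard] using h.tendsto

end ok

variable {R : Type} [CommRing R] [IsDomain R] [Algebra ℂ R] {n N : ℕ}

theorem ok' (hdim : Algebra.trdeg ℂ R = n) (φ : R →ₐ[ℂ] MvPowerSeries (Fin n) ℂ)
    (hφ : Function.Injective φ) {p q : Fin n → R} (hq : ∀ i, q i ≠ 0)
    (hpq : ∀ i, φ (p i) = MvPowerSeries.X i * φ (q i)) (z : Fin N → R) {x : R} (hx0 : x ≠ 0)
    (hx : x ∈ V z 1) (hp1 : ∀ i, p i ∈ V z 1) (hq1 : ∀ i, q i ∈ V z 1) (I : ℕ → Ideal R)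
    (hI0 : I 0 = ⊤) (hmul : ∀ k l, ∀ f ∈ I k, ∀ g ∈ I l, f * g ∈ I (k + l)) {c : ℕ}
    (hc : x ^ c ∈ I 1) : ∃ L : ℝ, Tendsto (fun k : ℕ =>
      (finrank ℂ (V z ((c + 1) * k) ⊓ (I k).restrictScalars ℂ : Submodule ℂ R) : ℝ) / (k : ℝ) ^ n)
      atTop (𝓝 L) := by
  obtain ⟨C, hC⟩ := grow hdim z
  have hfin : ∀ k, FiniteDimensional ℂ
      (V z ((c + 1) * k) ⊓ (I k).restrictScalars ℂ : Submodule ℂ R) := fun k =>
    have := fin_V z ((c + 1) * k)
    Submodule.finiteDimensional_of_le inf_le_left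
  have hrk : ∀ k, finrank ℂ ((V z ((c + 1) * k) ⊓ (I k).restrictScalars ℂ).map φ.toLinearMap) =
      finrank ℂ (V z ((c + 1) * k) ⊓ (I k).restrictScalars ℂ : Submodule ℂ R) := fun k =>
    (Submodule.equivMapOfInjective φ.toLinearMap hφ _).finrank_eq.symm
  have hxc : x ^ c ∈ V z c := by
    clear hc hfin hrk
    induction c with
    | zero => simpa using V_one
    | succ c ih => rw [pow_succ]; exact V_mul ih hx
  have key : ∀ f ∈ V z 1, φ (x ^ c * f) ∈
      (V z ((c + 1) * 1) ⊓ (I 1).restrictScalars ℂ).map φ.toLinearMap := fun f hf =>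
    ⟨_, ⟨by simpa using V_mul hxc hf, (I 1).mul_mem_right f hc⟩, rfl⟩
  have hne : ∀ f : R, f ≠ 0 → φ (x ^ c * f) ≠ 0 := fun f hf =>
    (map_ne_zero_iff φ hφ).2 (mul_ne_zero (pow_ne_zero _ hx0) hf)
  have h := ok (fun k => (V z ((c + 1) * k) ⊓ (I k).restrictScalars ℂ).map φ.toLinearMap)
    (fun k => inferInstance) ⟨1, ⟨by simpa using V_one, by simp [hI0]⟩, map_one φ⟩
    (by
      rintro k l _ ⟨f, hf, rfl⟩ _ ⟨g, hg, rfl⟩
      exact ⟨f * g, ⟨by rw [mul_add]; exact V_mul hf.1 hg.1, hmul _ _ _ hf.2 _ hg.2⟩,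
        map_mul φ f g⟩)
    (C := C * (c + 1) ^ n) (fun k => by
      have := fin_V z ((c + 1) * k)
      rw [hrk, mul_assoc, ← mul_pow]
      refine (Submodule.finrank_mono inf_le_left).trans ((hC _).trans ?_)
      gcongr
      nlinarith)
    (key x hx) (hne x hx0) (fun i => hne _ (hq i)) (fun i => key _ (hq1 i))
    (fun i => by
      have := key _ (hp1 i)
      rwa [map_mul, hpq, mul_left_comm, ← map_mul] at this)
  simpa only [hrk] using h

/-- The colengths of a graded family of ideals have an asymptotic density. -/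
theorem lim_nat [IsLocalRing R] [IsNoetherianRing R]
    (hres : Function.Surjective (algebraMap ℂ (ResidueField R))) (hm : maximalIdeal R ≠ ⊥)
    (hdim : Algebra.trdeg ℂ R = n) (φ : R →ₐ[ℂ] MvPowerSeries (Fin n) ℂ)
    (hφ : Function.Injective φ) {p q : Fin n → R} (hq : ∀ i, q i ≠ 0)
    (hpq : ∀ i, φ (p i) = MvPowerSeries.X i * φ (q i)) (I : ℕ → Ideal R)
    (hI0 : I 0 = ⊤) (hmul : ∀ k l, ∀ f ∈ I k, ∀ g ∈ I l, f * g ∈ I (k + l)) {c : ℕ}
    (hc : ∀ k, maximalIdeal R ^ (c * k) ≤ I k) :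
    ∃ (a : ℕ → ℕ) (L : ℝ), (∀ k, Module.length R (R ⧸ I k) = a k) ∧
      Tendsto (fun k : ℕ => (a k : ℝ) / (k : ℝ) ^ n) atTop (𝓝 L) := by
  classical
  obtain ⟨x, hxm, hx0⟩ := Submodule.exists_mem_ne_zero_of_ne_bot hm
  obtain ⟨s, hs⟩ := (maximalIdeal R).fg_of_isNoetherianRing
  let s' : Finset R := insert x (s ∪ Finset.univ.image (fun i => x * p i) ∪
    Finset.univ.image (fun i => x * q i))
  let z : Fin s'.card → R := fun j => (s'.equivFin.symm j : R)
  have hz : ∀ f ∈ s', ∃ j, z j = f := fun f hf => ⟨s'.equivFin ⟨f, hf⟩, by simp [z]⟩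
  have hz1 : ∀ f ∈ s', f ∈ V z 1 := fun f hf => by
    obtain ⟨j, rfl⟩ := hz f hf
    exact V_gen j
  have hspan : Ideal.span (Set.range z) = maximalIdeal R := by
    refine le_antisymm (Ideal.span_le.2 ?_) (hs.ge.trans (Ideal.span_mono fun f hf => ?_))
    · rintro _ ⟨j, rfl⟩
      have h1 : z j ∈ s' := (s'.equivFin.symm j).2
      simp only [s', Finset.mem_insert, Finset.mem_union, Finset.mem_image, Finset.mem_univ,
        true_and] at h1
      rcases h1 with h1 | (h1 | ⟨i, h1⟩) | ⟨i, h1⟩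
      · exact h1 ▸ hxm
      · exact hs ▸ Ideal.subset_span h1
      · exact h1 ▸ Ideal.mul_mem_right _ _ hxm
      · exact h1 ▸ Ideal.mul_mem_right _ _ hxm
    · exact hz f (by simp [s', Finset.mem_coe.1 hf])
  have hpq' : ∀ i, φ (x * p i) = MvPowerSeries.X i * φ (x * q i) := fun i => by
    rw [map_mul, map_mul, hpq, mul_left_comm]
  have hA := fun (I : ℕ → Ideal R) h0 h1 (h2 : x ^ c ∈ I 1) =>
    ok' hdim φ hφ (fun i => mul_ne_zero hx0 (hq i)) hpq' z hx0 (hz1 x (by simp [s']))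
      (fun i => hz1 _ (Finset.mem_insert_of_mem (Finset.mem_union_left _ (Finset.mem_union_right _
        (Finset.mem_image_of_mem _ (Finset.mem_univ i))))))
      (fun i => hz1 _ (Finset.mem_insert_of_mem (Finset.mem_union_right _
        (Finset.mem_image_of_mem _ (Finset.mem_univ i))))) I h0 h1 h2
  obtain ⟨L₁, h₁⟩ := hA (fun _ => ⊤) rfl (fun _ _ _ _ _ _ => trivial) trivial
  obtain ⟨L₂, h₂⟩ := hA I hI0 hmul (hc 1 (by rw [mul_one]; exact Ideal.pow_mem_pow hxm c))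
  have hk : ∀ k, FiniteDimensional ℂ (R ⧸ I k) ∧ finrank ℂ (R ⧸ I k) +
      finrank ℂ (V z ((c + 1) * k) ⊓ (I k).restrictScalars ℂ : Submodule ℂ R) =
      finrank ℂ (V z ((c + 1) * k)) := by
    intro k
    have := fin_V z ((c + 1) * k)
    let ψ : V z ((c + 1) * k) →ₗ[ℂ] R ⧸ I k :=
      (Ideal.Quotient.mkₐ ℂ (I k)).toLinearMap.comp (Submodule.subtype _)
    have hψ : Function.Surjective ψ := by
      intro y
      obtain ⟨f, rfl⟩ := Ideal.Quotient.mk_surjective y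
      rcases Nat.eq_zero_or_pos k with rfl | hk0
      · exact ⟨0, Ideal.Quotient.eq.2 (by simp [hI0])⟩
      obtain ⟨P, hP⟩ := P282.Full.lo_surj hres hspan.symm (c * k + 1) f
      have h1 := P282.EQ.cpl_mem z hspan (P282.EQ.cpl_trunc_sub P (c * k + 1))
      have h2 := MvPowerSeries.totalDegree_truncTotal_lt (P : MvPowerSeries (Fin s'.card) ℂ)
        (n := c * k + 1) (Nat.succ_ne_zero _)
      refine ⟨⟨_, mem_V.2 ⟨_, h2.le.trans (by nlinarith), rfl⟩⟩, Ideal.Quotient.eq.2 (hc k ?_)⟩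
      have h3 := sub_mem h1 hP
      rw [map_sub, sub_sub_sub_cancel_right] at h3
      exact Ideal.pow_le_pow_right (Nat.le_succ _) h3
    have h1 := ψ.finrank_range_add_finrank_ker
    have h2 : LinearMap.ker ψ = ((I k).restrictScalars ℂ).comap (Submodule.subtype _) := by
      ext f
      exact Ideal.Quotient.eq_zero_iff_mem
    rw [LinearMap.range_eq_top.2 hψ, finrank_top, h2, ← Submodule.finrank_map_subtype_eq,
      Submodule.map_comap_subtype] at h1
    exact ⟨Module.Finite.of_surjective ψ hψ, h1⟩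
  refine ⟨fun k => finrank ℂ (R ⧸ I k), L₁ - L₂, fun k => ?_, (h₁.sub h₂).congr fun k => ?_⟩
  · have := (hk k).1
    rw [← P282.Full.half_length_eq hres, Module.length_eq_finrank]
  · rw [Submodule.restrictScalars_top, inf_top_eq, ← (hk k).2, Nat.cast_add]
    ring

end Vale.Agent.P282W
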