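import Vale.Agent.P282W.Lim
import Vale.Agent.P282W.Defs

/-!
P282W: the volume of a valuation is a limit
-/

open scoped NNReal ENNReal Nat
open Filter Topology IsLocalRing Vale.Agent.P282.Gap Vale.Agent.P282Y

namespace Vale.Agent.P282W

theorem real_lim {n : ℕ} {l : ℝ → ℕ∞} (hl : Monotone l) {a : ℕ → ℕ} (ha : ∀ k : ℕ, l k = a k)
    {L : ℝ} (h : Tendsto (fun k : ℕ => (a k : ℝ) / (k : ℝ) ^ n) atTop (𝓝 L)) :
    Tendsto (fun t : ℝ => (n ! : ℝ≥0∞) * (l t : ℝ≥0∞) / ENNReal.ofReal t ^ n) atTop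
      (𝓝 (ENNReal.ofReal (n ! * L))) := by
  have key : ∀ f : ℝ → ℕ, Tendsto f atTop atTop → Tendsto (fun t : ℝ => (f t : ℝ) / t) atTop (𝓝 1) →
      Tendsto (fun t : ℝ => (n ! : ℝ≥0∞) * (l (f t) : ℝ≥0∞) / ENNReal.ofReal t ^ n) atTop
        (𝓝 (ENNReal.ofReal (n ! * L))) := by
    intro f h1 h2
    have h3 := ENNReal.tendsto_ofReal (((h.comp h1).mul (h2.pow n)).const_mul (n ! : ℝ))
    rw [one_pow, mul_one] at h3
    refine h3.congr' ?_
    filter_upwards [eventually_gt_atTop 0, h1.eventually (eventually_gt_atTop 0)] with t ht hf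
    have hf' : (0 : ℝ) < f t := by exact_mod_cast hf
    have h4 : (n ! : ℝ) * ((a (f t) : ℝ) / (f t : ℝ) ^ n * ((f t : ℝ) / t) ^ n) =
        n ! * a (f t) / t ^ n := by
      rw [div_pow]
      field_simp
    rw [Function.comp_apply, h4, ha, ENNReal.ofReal_div_of_pos (by positivity),
      ENNReal.ofReal_pow ht.le, ENNReal.ofReal_mul (by positivity), ENNReal.ofReal_natCast,
      ENNReal.ofReal_natCast]
    simp
  refine tendsto_of_tendsto_of_tendsto_of_le_of_le'
    (key _ tendsto_nat_floor_atTop tendsto_nat_floor_div_atTop)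
    (key _ tendsto_nat_ceil_atTop tendsto_nat_ceil_div_atTop) ?_ ?_
  · filter_upwards [eventually_ge_atTop 0] with t ht
    have := ENat.toENNReal_mono (hl (Nat.floor_le ht))
    gcongr
  · filter_upwards with t
    have := ENat.toENNReal_mono (hl (Nat.le_ceil t))
    gcongr

variable {n r : ℕ} {R K : Type} [CommRing R] [IsDomain R] [IsLocalRing R] [Algebra ℂ R] [Field K]
  [Algebra ℂ K] [Algebra R K] [IsFractionRing R K] [IsScalarTower ℂ R K]
  {ω : (Fin n → Derivation ℂ K K) → K}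

omit [IsDomain R] [Algebra R K] [IsFractionRing R K] [IsScalarTower ℂ R K] in
theorem ne_bot (hn : 1 ≤ n) (h : IsGerm R n r ω) : maximalIdeal R ≠ ⊥ := by
  intro hb
  have halg : Algebra.IsAlgebraic ℂ R := ⟨fun f => by
    obtain ⟨c, hc⟩ := h.residue (residue R f)
    have h1 : residue R (algebraMap ℂ R c - f) = 0 := by
      rw [map_sub, sub_eq_zero, ← hc]
      rfl
    rw [residue_eq_zero_iff, hb, Ideal.mem_bot, sub_eq_zero] at h1
    exact h1 ▸ isAlgebraic_algebraMap c⟩
  have h0 : Algebra.trdeg ℂ R = 0 := trdeg_eq_zero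
  rw [h.dim] at h0
  have : n = 0 := by exact_mod_cast h0
  omega

theorem exists_lim (hn : 1 ≤ n) (h : IsGerm R n r ω) {v : Valuation K ℝ≥0}
    (hv : HasCenter R v (maximalIdeal R)) :
    ∃ L : ℝ, Tendsto (ratio R n v) atTop (𝓝 (ENNReal.ofReal L)) := by
  have hv1 : ∀ f : R, v (algebraMap R K f) ≤ 1 := fun f => (hv f).1
  have hmem : ∀ (t : ℝ) (f : R), f ∈ valIdeal R v t ↔ (v (algebraMap R K f) : ℝ) ≤ Real.exp (-t) :=
    fun t f => P282.Full.half_mem_valIdeal hv1
  have := h.essFiniteType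
  have : IsNoetherianRing R := Algebra.EssFiniteType.isNoetherianRing ℂ R
  obtain ⟨c, -⟩ := (stDICT R K n r ω h).1.chart v hv1
  obtain ⟨⟨d, hd, hp⟩, -⟩ := stCFR R K n r ω h c
  have := c.regular
  obtain ⟨ψ, hψ, hy⟩ := emb c.residue c.span.symm (d := fun i => resD c.S (d i) (hp i))
    fun i j => Subtype.ext (by
      rw [coe_resD, hd.dual]
      split_ifs <;> rfl)
  let ι : R →ₐ[ℂ] c.S := (IsScalarTower.toAlgHom ℂ R K).codRestrict c.S c.above
  have hι : Function.Injective ι := fun a b e =>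
    IsFractionRing.injective R K (congrArg Subtype.val e)
  choose p q hq hpq using fun i => IsFractionRing.div_surjective (A := R) (c.y i : K)
  have hmul : ∀ k l : ℕ, ∀ f ∈ valIdeal R v k, ∀ g ∈ valIdeal R v l,
      f * g ∈ valIdeal R v (k + l : ℕ) := by
    intro k l f hf g hg
    rw [hmem] at hf hg ⊢
    rw [map_mul, map_mul, NNReal.coe_mul, Nat.cast_add, neg_add, Real.exp_add]
    exact mul_le_mul hf hg (NNReal.coe_nonneg _) (Real.exp_pos _).le
  have h0 : valIdeal R v (0 : ℕ) = ⊤ := (Ideal.eq_top_iff_one _).2 ((hmem _ _).2 (by simp))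
  obtain ⟨e, he⟩ : ∃ e, maximalIdeal R ^ e ≤ valIdeal R v (1 : ℕ) := by
    refine Ideal.exists_pow_le_of_le_radical_of_fg (fun f hf => ?_)
      (maximalIdeal R).fg_of_isNoetherianRing
    have h1 : (v (algebraMap R K f) : ℝ) < 1 := by exact_mod_cast (hv f).2.2 hf
    obtain ⟨N, hN⟩ := exists_pow_lt_of_lt_one (Real.exp_pos (-((1 : ℕ) : ℝ))) h1
    refine ⟨N, (hmem _ _).2 ?_⟩
    rw [map_pow, map_pow, NNReal.coe_pow]
    exact hN.le
  have he' : ∀ k : ℕ, maximalIdeal R ^ (e * k) ≤ valIdeal R v k := by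
    intro k
    induction k with
    | zero => exact h0 ▸ le_top
    | succ k ih =>
      rw [mul_add, mul_one, pow_add]
      exact Ideal.mul_le.2 fun f hf g hg => hmul _ _ _ (ih hf) _ (he hg)
  obtain ⟨a, L, ha, hL⟩ := lim_nat h.residue (ne_bot hn h) h.dim (ψ.comp ι) (hψ.comp hι)
    (p := p) (q := q) (fun i => nonZeroDivisors.ne_zero (hq i)) (fun i => by
      rw [← hy, AlgHom.comp_apply, AlgHom.comp_apply, ← map_mul]
      congr 1
      refine Subtype.ext ?_
      change algebraMap R K (p i) = (c.y i : K) * algebraMap R K (q i)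
      rw [← hpq, div_mul_cancel₀]
      exact IsFractionRing.to_map_ne_zero_of_mem_nonZeroDivisors (hq i))
    (fun k => valIdeal R v k) h0 hmul he'
  refine ⟨_, real_lim (l := fun t => Module.length R (R ⧸ valIdeal R v t)) ?_ ha hL⟩
  intro s t hst
  have h1 : valIdeal R v t ≤ valIdeal R v s := fun f hf =>
    (hmem _ _).2 (((hmem _ _).1 hf).trans (Real.exp_le_exp.2 (neg_le_neg hst)))
  exact Module.length_le_of_surjective (Submodule.factor h1) (Submodule.factor_surjective h1)

theorem limitExists (hn : 1 ≤ n) (h : IsGerm R n r ω) : LimitExists R K n := by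
  intro v hv
  obtain ⟨L, hL⟩ := exists_lim hn h hv
  refine ⟨fun t f => P282.Full.half_mem_valIdeal fun f => (hv f).1,
    tendsto_nhds_limUnder ⟨_, hL⟩, ?_⟩
  rw [volume, hL.limUnder_eq]
  exact ENNReal.ofReal_ne_top

theorem nvolume_eq (hn : 1 ≤ n) (h : IsGerm R n r ω) : nvolume R n r ω = nvol R n r ω := by
  refine iInf_congr fun v => iInf_congr fun hv => ?_
  have h1 := ((limitExists hn h v hv).2.1.comp tendsto_natCast_atTop_atTop).liminf_eq
  have h2 : vol R n v = volume R n v := by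
    rw [← h1, vol]
    congr 1
    funext t
    simp only [Function.comp_apply, ratio, ENNReal.ofReal_natCast]
  split_ifs with h3
  · simp [h3]
  · simp [h3, h2]

end Vale.Agent.P282W
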