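import Mathlib

/-!
P282W: quadratic extensions of factorial rings
-/

open Polynomial

namespace Vale.Agent.P282W

variable {B : Type} [CommRing B] [IsDomain B] [UniqueFactorizationMonoid B]

theorem dvd_of_int {K : Type} [Field K] [Algebra B K] (hi : Function.Injective (algebraMap B K))
    {a c : B} (hc : c ≠ 0) (h : IsIntegral B (algebraMap B K a / algebraMap B K c)) : c ∣ a := by
  let ι : FractionRing B →ₐ[B] K := IsFractionRing.liftAlgHom (g := Algebra.ofId B K) hi
  have h1 : ι (algebraMap B _ a / algebraMap B _ c) = algebraMap B K a / algebraMap B K c := by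
    rw [map_div₀, ι.commutes, ι.commutes]
  rw [← h1, isIntegral_algHom_iff ι ι.injective, IsIntegrallyClosed.isIntegral_iff] at h
  obtain ⟨b, hb⟩ := h
  refine ⟨b, IsFractionRing.injective B (FractionRing B) ?_⟩
  rw [map_mul, hb, mul_div_cancel₀]
  exact (map_ne_zero_iff _ (IsFractionRing.injective B _)).2 hc

theorem dvd_of_sq {g b c : B} (hg : Squarefree g) (hc : c ≠ 0) (h : c * c ∣ b * b * g) : c ∣ b := by
  obtain ⟨b', c', e, h1, rfl, rfl⟩ := UniqueFactorizationMonoid.exists_reduced_factors' b c hc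
  have he : e ≠ 0 := left_ne_zero_of_mul hc
  have h2 : c' * c' ∣ b' * b' * g := by
    refine (mul_dvd_mul_iff_left (mul_ne_zero he he)).1 ?_
    convert h using 1 <;> ring
  have h3 : IsRelPrime (c' * c') (b' * b') := by
    have := h1.symm
    exact (this.mul_left this).mul_right (this.mul_left this)
  exact mul_dvd_mul_left e (hg _ (h3.dvd_of_dvd_mul_left h2)).dvd

theorem normal_of {A : Type} [CommRing A] [IsDomain A] [Algebra B A] [Algebra.IsIntegral B A]
    (hinj : Function.Injective (algebraMap B A)) (h2 : IsUnit (2 : B)) {g : B} (hg : Squarefree g)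
    {ρ : A} (htop : Algebra.adjoin B {ρ} = ⊤) (hρ : ρ ^ 2 = -algebraMap B A g) (σ : A ≃ₐ[B] A)
    (hσ : σ ρ = -ρ) : IsIntegrallyClosed A := by
  have hdec : ∀ x : A, ∃ a b : B, x = algebraMap B A a + algebraMap B A b * ρ := by
    intro x
    have hx : x ∈ Algebra.adjoin B {ρ} := htop ▸ Algebra.mem_top
    induction hx using Algebra.adjoin_induction with
    | mem x hx => exact ⟨0, 1, by simpa using hx⟩
    | algebraMap a => exact ⟨a, 0, by simp⟩
    | add x y _ _ hx hy =>
      obtain ⟨a, b, rfl⟩ := hx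
      obtain ⟨c, d, rfl⟩ := hy
      exact ⟨a + c, b + d, by simp only [map_add]; ring⟩
    | mul x y _ _ hx hy =>
      obtain ⟨a, b, rfl⟩ := hx
      obtain ⟨c, d, rfl⟩ := hy
      refine ⟨a * c - b * d * g, a * d + b * c, ?_⟩
      simp only [map_add, map_sub, map_mul]
      linear_combination (algebraMap B A b * algebraMap B A d) * hρ
  have hA := IsFractionRing.injective A (FractionRing A)
  have hK : Function.Injective (algebraMap B (FractionRing A)) := by
    rw [IsScalarTower.algebraMap_eq B A (FractionRing A)]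
    exact hA.comp hinj
  refine (isIntegrallyClosed_iff (FractionRing A)).2 fun {α} hα => ?_
  have hα' : IsIntegral B α := isIntegral_trans α hα
  obtain ⟨p, s, hs, rfl⟩ := IsFractionRing.div_surjective (A := A) α
  have hs0 : s ≠ 0 := nonZeroDivisors.ne_zero hs
  have hs1 : σ s ≠ 0 := (map_ne_zero_iff _ σ.injective).2 hs0
  obtain ⟨c, hc⟩ : ∃ c : B, s * σ s = algebraMap B A c := by
    obtain ⟨a, b, rfl⟩ := hdec s
    refine ⟨a * a + b * b * g, ?_⟩
    simp only [map_add, map_mul, AlgEquiv.commutes, hσ]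
    linear_combination (-(algebraMap B A b * algebraMap B A b)) * hρ
  have hc0 : c ≠ 0 := by
    rintro rfl
    exact mul_ne_zero hs0 hs1 (by rw [hc, map_zero])
  obtain ⟨a, b, hab⟩ := hdec (p * σ s)
  set r := algebraMap A (FractionRing A) ρ with hr
  have hcK : algebraMap B (FractionRing A) c ≠ 0 := (map_ne_zero_iff _ hK).2 hc0
  have hr2 : r ^ 2 = -algebraMap B _ g := by
    rw [hr, ← map_pow, hρ, map_neg, ← IsScalarTower.algebraMap_apply]
  have e1 : algebraMap A (FractionRing A) p / algebraMap A _ s =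
      (algebraMap B _ a + algebraMap B _ b * r) / algebraMap B _ c := by
    rw [← mul_div_mul_right _ _ ((map_ne_zero_iff _ hA).2 hs1), ← map_mul, ← map_mul, hc, hab,
      map_add, map_mul]
    simp only [← IsScalarTower.algebraMap_apply, hr]
  rw [e1] at hα' ⊢
  let τ : FractionRing A ≃ₐ[B] FractionRing A := IsFractionRing.algEquivOfAlgEquiv σ
  have hτ : τ.toAlgHom r = -r := by
    change τ r = -r
    rw [hr, IsFractionRing.algEquivOfAlgEquiv_algebraMap, hσ, map_neg]
  have h3 := hα'.add (hα'.map τ.toAlgHom)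
  have e2 : (algebraMap B _ a + algebraMap B _ b * r) / algebraMap B _ c +
      τ.toAlgHom ((algebraMap B _ a + algebraMap B _ b * r) / algebraMap B _ c) =
      algebraMap B _ (2 * a) / algebraMap B _ c := by
    simp only [map_div₀, map_add, map_mul, AlgHom.commutes, hτ, map_ofNat]
    ring
  rw [e2] at h3
  obtain ⟨a', rfl⟩ : c ∣ a := (h2.dvd_mul_left).1 (dvd_of_int hK hc0 h3)
  have h4 := (hα'.sub (isIntegral_algebraMap (x := a'))).pow 2
  have e3 : ((algebraMap B _ (c * a') + algebraMap B _ b * r) / algebraMap B _ c -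
      algebraMap B (FractionRing A) a') ^ 2 =
      algebraMap B _ (-(b * b * g)) / algebraMap B _ (c * c) := by
    simp only [map_mul, map_neg]
    field_simp
    linear_combination (algebraMap B (FractionRing A) b) ^ 2 * hr2
  rw [e3] at h4
  obtain ⟨b', rfl⟩ : c ∣ b :=
    dvd_of_sq hg hc0 (dvd_neg.1 (dvd_of_int hK (mul_ne_zero hc0 hc0) h4))
  refine ⟨algebraMap B A a' + algebraMap B A b' * ρ, ?_⟩
  simp only [map_add, map_mul, ← IsScalarTower.algebraMap_apply, ← hr]
  field_simp

theorem quad (h2 : IsUnit (2 : B)) {g : B} (hg : Squarefree g) (hu : ¬ IsUnit g) :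
    IsDomain (AdjoinRoot (X ^ 2 + C g)) ∧ IsIntegrallyClosed (AdjoinRoot (X ^ 2 + C g)) := by
  have hf : (X ^ 2 + C g).Monic := monic_X_pow_add_C _ two_ne_zero
  have hd : (X ^ 2 + C g).natDegree = 2 := natDegree_X_pow_add_C
  have hirr : Irreducible (X ^ 2 + C g) := by
    refine (hf.irreducible_iff_roots_eq_zero_of_degree_le_three hd.ge (by omega)).2
      (Multiset.eq_zero_of_forall_notMem fun r hr => hu ?_)
    have h1 : g = -(r * r) := by
      have := (mem_roots hf.ne_zero).1 hr
      simp only [IsRoot.def, eval_add, eval_pow, eval_X, eval_C] at this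
      linear_combination this
    have h3 := hg r (by rw [h1]; exact (dvd_refl _).neg_right)
    rw [h1]
    exact (h3.mul h3).neg
  have hdom := AdjoinRoot.isDomain_of_prime hirr.prime
  refine ⟨hdom, ?_⟩
  have hinj : Function.Injective (algebraMap B (AdjoinRoot (X ^ 2 + C g))) :=
    AdjoinRoot.of.injective_of_degree_ne_zero (by
      rw [degree_eq_natDegree hf.ne_zero, hd]; decide)
  have hfin := hf.finite_adjoinRoot
  have htop := AdjoinRoot.adjoinRoot_eq_top (f := X ^ 2 + C g)
  have hρ : AdjoinRoot.root (X ^ 2 + C g) ^ 2 = -algebraMap B _ g := by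
    have := AdjoinRoot.aeval_eq (f := X ^ 2 + C g) (X ^ 2 + C g)
    rw [AdjoinRoot.mk_self, map_add, map_pow, aeval_X, aeval_C] at this
    exact eq_neg_of_add_eq_zero_left this
  let σ : AdjoinRoot (X ^ 2 + C g) →ₐ[B] AdjoinRoot (X ^ 2 + C g) :=
    AdjoinRoot.liftAlgHom _ (Algebra.ofId B _) (-AdjoinRoot.root _) (by
      simp only [eval₂_add, eval₂_pow, eval₂_X, eval₂_C, neg_sq, hρ]
      exact neg_add_cancel _)
  have hσ : σ (AdjoinRoot.root _) = -AdjoinRoot.root _ := AdjoinRoot.liftAlgHom_root ..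
  have hσσ : σ.comp σ = AlgHom.id B _ :=
    AdjoinRoot.algHom_ext (by rw [AlgHom.comp_apply, hσ, map_neg, hσ, neg_neg]; rfl)
  exact normal_of hinj h2 hg htop hρ (AlgEquiv.ofAlgHom σ σ hσσ hσσ) hσ

end Vale.Agent.P282W
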