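import Vale.Agent.P282.Bd3.B11

/-!
P282W: the number of points of a graded semigroup has an asymptotic density (Okounkov)
-/

open Filter Topology MeasureTheory Vale.Agent.P282.CV

namespace Vale.Agent.P282W

/-- A graded semigroup which generates the lattice and has polynomial growth. -/
structure Sg {d : ℕ} (S : ℕ → Set (Fin d → ℤ)) (a : Fin d → ℤ) (b : Fin d → Fin d → ℤ) (C : ℕ) :
    Prop where
  zero : 0 ∈ S 0
  add : ∀ s t, ∀ z ∈ S s, ∀ z' ∈ S t, z + z' ∈ S (s + t)
  ha : a ∈ S 1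
  hb : ∀ i, b i ∈ S 1
  hb' : ∀ i, b i + Pi.single i 1 ∈ S 1
  fin : ∀ t, (S t).Finite
  card : ∀ t, (S t).ncard ≤ C * (t + 1) ^ d

variable {d : ℕ} {S : ℕ → Set (Fin d → ℤ)} {a : Fin d → ℤ} {b : Fin d → Fin d → ℤ} {C : ℕ}

theorem Sg.nsmul (h : Sg S a b C) {s : ℕ} {z : Fin d → ℤ} (hz : z ∈ S s) (n : ℕ) :
    n • z ∈ S (n * s) := by
  induction n with
  | zero => simpa using h.zero
  | succ n ih =>
    rw [succ_nsmul, add_mul, one_mul]
    exact h.add _ _ _ ih _ hz

theorem Sg.sum (h : Sg S a b C) {ι : Type} (W : Finset ι) (q : ι → Fin d → ℤ) (s : ι → ℕ)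
    (hq : ∀ w ∈ W, q w ∈ S (s w)) : ∑ w ∈ W, q w ∈ S (∑ w ∈ W, s w) := by
  classical
  induction W using Finset.induction_on with
  | empty => simpa using h.zero
  | insert w W hw ih =>
    rw [Finset.sum_insert hw, Finset.sum_insert hw]
    exact h.add _ _ _ (hq w (Finset.mem_insert_self w W)) _
      (ih fun v hv => hq v (Finset.mem_insert_of_mem hv))

/-- The centre of a box inside the semigroup. -/
def gam (b : Fin d → Fin d → ℤ) (M : ℕ) : Fin d → ℤ :=
  ∑ i, (M • b i + M • (b i + Pi.single i 1))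

theorem Sg.box (h : Sg S a b C) (M : ℕ) (ρ : Fin d → ℤ) (hρ : ∀ i, |ρ i| ≤ M) :
    ρ + gam b M ∈ S (2 * M * d) := by
  have h1 := h.sum Finset.univ
    (fun i => ((M : ℤ) - ρ i).toNat • b i + ((M : ℤ) + ρ i).toNat • (b i + Pi.single i 1))
    (fun i => ((M : ℤ) - ρ i).toNat * 1 + ((M : ℤ) + ρ i).toNat * 1)
    (fun i _ => h.add _ _ _ (h.nsmul (h.hb i) _) _ (h.nsmul (h.hb' i) _))
  have h2 : ∑ i : Fin d, (((M : ℤ) - ρ i).toNat * 1 + ((M : ℤ) + ρ i).toNat * 1) = 2 * M * d := by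
    rw [Finset.sum_congr rfl (g := fun _ => 2 * M), Finset.sum_const, Finset.card_univ,
      Fintype.card_fin, smul_eq_mul, mul_comm]
    intro i _
    have := abs_le.1 (hρ i)
    omega
  rw [h2] at h1
  convert h1 using 1
  have h3 : ρ = ∑ i, ρ i • (Pi.single i 1 : Fin d → ℤ) := by
    funext j
    simp [Finset.sum_apply, Pi.single_apply]
  conv_lhs => rw [h3]
  rw [gam, ← Finset.sum_add_distrib]
  refine Finset.sum_congr rfl fun i _ => ?_
  have h4 := abs_le.1 (hρ i)
  rw [← natCast_zsmul (b i) ((M : ℤ) - ρ i).toNat,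
    ← natCast_zsmul (b i + Pi.single i 1) ((M : ℤ) + ρ i).toNat,
    Int.toNat_of_nonneg (by omega), Int.toNat_of_nonneg (by omega), ← natCast_zsmul (b i) M,
    ← natCast_zsmul (b i + Pi.single i 1) M]
  module

/-- Polynomial growth forces the cone to have a bounded base. -/
theorem Sg.bound (h : Sg S a b C) {s : ℕ} (hs : 0 < s) {z : Fin d → ℤ} (hz : z ∈ S s)
    (l : Fin d) : |z l - s * a l| ≤ (C * (2 * d + 3) ^ d : ℕ) * s := by
  classical
  obtain ⟨L, hL⟩ : ∃ L : ℕ, (L : ℤ) = |z l - s * a l| := ⟨_, Int.natCast_natAbs _⟩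
  rw [← hL]
  rcases Nat.eq_zero_or_pos L with h0 | h0
  · rw [h0]; positivity
  set M := s * L with hM
  set I := L / s with hI
  have hI1 : I * s ≤ L := Nat.div_mul_le_self L s
  have hI2 : L < (I + 1) * s := by
    have := Nat.lt_div_mul_add (a := L) hs
    rw [add_mul, one_mul]; exact this
  let D : Finset (ℕ × (Fin d → ℤ)) :=
    Finset.range (I + 1) ×ˢ Fintype.piFinset fun _ => Finset.Icc (-(M : ℤ)) M
  let F : ℕ × (Fin d → ℤ) → Fin d → ℤ := fun p =>
    (3 * s * p.1) • z + (p.2 + gam b M) + (3 * M - 3 * s * p.1 * s) • a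
  have hle : ∀ i < I + 1, 3 * s * i * s ≤ 3 * M := by
    intro i hi
    have : i * s ≤ L := (Nat.mul_le_mul_right s (by omega)).trans hI1
    calc 3 * s * i * s = 3 * (s * (i * s)) := by ring
      _ ≤ 3 * (s * L) := by gcongr
  have hmem : ∀ p ∈ D, p.1 < I + 1 ∧ ∀ i, |p.2 i| ≤ M := by
    intro p hp
    rw [Finset.mem_product, Finset.mem_range, Fintype.mem_piFinset] at hp
    exact ⟨hp.1, fun i => abs_le.2 (Finset.mem_Icc.1 (hp.2 i))⟩
  have hF : ∀ p ∈ D, F p ∈ S (2 * M * d + 3 * M) := by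
    intro p hp
    have h1 := h.add _ _ _ (h.add _ _ _ (h.nsmul hz (3 * s * p.1)) _ (h.box M p.2 (hmem p hp).2)) _
      (h.nsmul h.ha (3 * M - 3 * s * p.1 * s))
    have h2 := hle _ (hmem p hp).1
    convert h1 using 2
    omega
  have hinj : Set.InjOn F D := by
    intro p hp p' hp' e
    obtain ⟨h1, h2⟩ := hmem p hp
    obtain ⟨h1', h2'⟩ := hmem p' hp'
    have e1 := congrFun e l
    simp only [F, Pi.add_apply, Pi.smul_apply] at e1
    simp only [nsmul_eq_mul, Nat.cast_sub (hle _ h1), Nat.cast_sub (hle _ h1')] at e1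
    push_cast at e1
    have e2 : 3 * s * ((p.1 : ℤ) - p'.1) * (z l - s * a l) = p'.2 l - p.2 l := by
      linear_combination e1
    have e3 : p.1 = p'.1 := by
      by_contra hne
      have h3 : (1 : ℤ) ≤ |(p.1 : ℤ) - p'.1| := Int.one_le_abs (by omega)
      have h4 := congrArg abs e2
      rw [abs_mul, abs_mul, ← hL, abs_of_nonneg (by positivity : (0 : ℤ) ≤ 3 * s)] at h4
      have h5 : |p'.2 l - p.2 l| ≤ 2 * M := (abs_sub _ _).trans (by linarith [h2 l, h2' l])
      have h6 : (M : ℤ) = s * L := by rw [hM]; push_cast; rfl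
      have h7 : (0 : ℤ) < s * L := by positivity
      have h8 : (s * L : ℤ) * 1 ≤ s * L * |(p.1 : ℤ) - p'.1| := by gcongr
      nlinarith
    refine Prod.ext e3 ?_
    simp only [F, e3] at e
    exact add_right_cancel (add_left_cancel (add_right_cancel e))
  have hc : D.card ≤ (S (2 * M * d + 3 * M)).ncard := by
    rw [← Finset.card_image_of_injOn hinj, ← Set.ncard_coe_finset]
    refine Set.ncard_le_ncard ?_ (h.fin _)
    intro y hy
    obtain ⟨p, hp, rfl⟩ := Finset.mem_image.1 hy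
    exact hF p hp
  have hD : D.card = (I + 1) * (2 * M + 1) ^ d := by
    rw [Finset.card_product, Finset.card_range, Fintype.card_piFinset, Finset.prod_const,
      Finset.card_univ, Fintype.card_fin, Int.card_Icc]
    congr 2
    omega
  have h9 : (I + 1) * (2 * M + 1) ^ d ≤ C * (2 * d + 3) ^ d * (2 * M + 1) ^ d := by
    rw [← hD, mul_assoc, ← mul_pow]
    refine hc.trans ((h.card _).trans ?_)
    gcongr
    nlinarith
  have h10 := Nat.le_of_mul_le_mul_right h9 (by positivity)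
  have h11 : L ≤ C * (2 * d + 3) ^ d * s := hI2.le.trans (Nat.mul_le_mul_right s h10)
  exact_mod_cast h11

/-- The Newton-Okounkov body. -/
def body (S : ℕ → Set (Fin d → ℤ)) : Set (Fin d → ℝ) :=
  convexHull ℝ {y : Fin d → ℝ | ∃ s : ℕ, 0 < s ∧ ∃ z ∈ S s, y = (s : ℝ)⁻¹ • toR z}

theorem Sg.eventually_mem (h : Sg S a b C) {x : Fin d → ℝ} (hx : x ∈ interior (body S)) :
    ∀ᶠ t : ℕ in atTop, (fun i => ⌊(t : ℝ) * x i⌋) ∈ S t := by
  classical
  obtain ⟨W, hWU, η, hη, hball⟩ := monA_finite hx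
  have hWU' : ∀ w ∈ W, ∃ s : ℕ, 0 < s ∧ ∃ z ∈ S s, w = (s : ℝ)⁻¹ • toR z :=
    fun w hw => hWU hw
  choose! sw hsw0 zw hzw hweq using hWU'
  set s : ℕ := ∏ w ∈ W, sw w with hsdef
  have hs0 : 0 < s := Finset.prod_pos fun w hw => hsw0 w hw
  have hs0' : (0 : ℝ) < s := by exact_mod_cast hs0
  have hq : ∀ w ∈ W, ∃ q : Fin d → ℤ, q ∈ S s ∧ (s : ℝ) • w = toR q := by
    intro w hw
    obtain ⟨e, he⟩ : sw w ∣ s := Finset.dvd_prod_of_mem sw hw
    refine ⟨e • zw w, ?_, ?_⟩
    · rw [he, mul_comm]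
      exact h.nsmul (hzw w hw) e
    · have h1 : (sw w : ℝ) ≠ 0 := by
        have := hsw0 w hw
        positivity
      have h2 : toR (e • zw w) = (e : ℝ) • toR (zw w) := by
        rw [← monA_hom_apply, map_nsmul, monA_hom_apply, Nat.cast_smul_eq_nsmul]
      rw [h2]
      conv_lhs => rw [hweq w hw]
      rw [smul_smul, he]
      congr 1
      push_cast
      field_simp
  choose! q hqS hqeq using hq
  set M : ℕ := ∑ w ∈ W, ∑ i, (q w i - s * a i).natAbs with hM
  set g : ℕ := 2 * M * d with hg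
  have hinv : Tendsto (fun t : ℕ => ((t : ℝ) - g)⁻¹) atTop (𝓝 0) :=
    tendsto_inv_atTop_zero.comp (tendsto_atTop_add_const_right _ _ tendsto_natCast_atTop_atTop)
  have hlim : Tendsto (fun t : ℕ => (1 + g * ((t : ℝ) - g)⁻¹) •
      ((t : ℝ)⁻¹ • toR (fun i => ⌊(t : ℝ) * x i⌋)) - ((t : ℝ) - g)⁻¹ • toR (gam b M)) atTop
      (𝓝 x) := by
    have := ((tendsto_const_nhds (x := (1 : ℝ))).add (hinv.const_mul (g : ℝ))).smul
      (monLim_tendsto_floor x) |>.sub (hinv.smul_const (toR (gam b M)))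
    simpa using this
  filter_upwards [hlim.eventually (Metric.closedBall_mem_nhds x hη), eventually_gt_atTop g]
    with t hmem ht
  obtain ⟨u, rfl⟩ := Nat.exists_eq_add_of_le ht.le
  have hu : (0 : ℝ) < u := by exact_mod_cast (by omega : 0 < u)
  set z : Fin d → ℤ := fun i => ⌊((g + u : ℕ) : ℝ) * x i⌋ with hz
  have hhull := hball hmem
  rw [Finset.mem_convexHull'] at hhull
  obtain ⟨lam, hlam0, hlam1, hlameq⟩ := hhull
  have hg0 : (0 : ℝ) ≤ g := Nat.cast_nonneg g
  have hrep : ∀ i, (z i : ℝ) - gam b M i = ∑ w ∈ W, (u / s * lam w) * q w i := by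
    intro i
    have h1 := congrFun hlameq i
    simp only [Finset.sum_apply, Pi.smul_apply, Pi.sub_apply, smul_eq_mul, toR] at h1
    have h2 : ∑ w ∈ W, (u / s * lam w) * q w i = u * ∑ w ∈ W, lam w * w i := by
      rw [Finset.mul_sum]
      refine Finset.sum_congr rfl fun w hw => ?_
      have h3 := congrFun (hqeq w hw) i
      simp only [Pi.smul_apply, smul_eq_mul, toR] at h3
      rw [← h3]
      field_simp
    rw [h2, h1]
    push_cast
    rw [add_sub_cancel_left]
    field_simp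
    ring
  let m : (Fin d → ℝ) → ℕ := fun w => ⌊u / s * lam w⌋₊
  have hm1 : ∀ w ∈ W, (m w : ℝ) ≤ u / s * lam w := fun w hw =>
    Nat.floor_le (mul_nonneg (by positivity) (hlam0 w hw))
  have hm2 : ∀ w ∈ W, u / s * lam w - m w ≤ 1 := fun w hw => by
    have := Nat.lt_floor_add_one (u / s * lam w)
    linarith only [this]
  have hsum : ∑ w ∈ W, u / s * lam w * s = (u : ℝ) := by
    rw [← Finset.sum_mul, ← Finset.mul_sum, hlam1]
    field_simp
  have hle : ∑ w ∈ W, m w * s ≤ u := by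
    have : ((∑ w ∈ W, m w * s : ℕ) : ℝ) ≤ u := by
      rw [← hsum]
      push_cast
      exact Finset.sum_le_sum fun w hw => mul_le_mul_of_nonneg_right (hm1 w hw) hs0'.le
    exact_mod_cast this
  obtain ⟨τ, hτ⟩ := Nat.exists_eq_add_of_le hle
  have hτ' : (τ : ℝ) = ∑ w ∈ W, (u / s * lam w - m w) * s := by
    have h1 : (u : ℝ) = ∑ w ∈ W, (m w : ℝ) * s + τ := by exact_mod_cast hτ
    simp only [sub_mul]
    rw [Finset.sum_sub_distrib, hsum]
    linarith only [h1]
  have hρ : ∀ i, |(z - gam b M - ∑ w ∈ W, m w • q w - τ • a) i| ≤ M := by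
    intro i
    have h1 : (((z - gam b M - ∑ w ∈ W, m w • q w - τ • a) i : ℤ) : ℝ) =
        ∑ w ∈ W, (u / s * lam w - m w) * ((q w i - s * a i : ℤ) : ℝ) := by
      simp only [Pi.sub_apply, Finset.sum_apply, Pi.smul_apply]
      simp only [nsmul_eq_mul]
      push_cast
      rw [hrep i, hτ', Finset.sum_mul, ← Finset.sum_sub_distrib, ← Finset.sum_sub_distrib]
      refine Finset.sum_congr rfl fun w _ => by ring
    have h2 : |(((z - gam b M - ∑ w ∈ W, m w • q w - τ • a) i : ℤ) : ℝ)| ≤ M := by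
      rw [h1, hM]
      refine (Finset.abs_sum_le_sum_abs _ _).trans ?_
      rw [Nat.cast_sum]
      refine Finset.sum_le_sum fun w hw => ?_
      rw [abs_mul, abs_of_nonneg (sub_nonneg.2 (hm1 w hw))]
      refine (mul_le_of_le_one_left (abs_nonneg _) (hm2 w hw)).trans ?_
      have h3 : (q w i - s * a i).natAbs ≤ ∑ i, (q w i - s * a i).natAbs :=
        Finset.single_le_sum (f := fun i => (q w i - s * a i).natAbs) (fun _ _ => Nat.zero_le _)
          (Finset.mem_univ i)
      rw [← Int.cast_abs, ← Int.natCast_natAbs, Int.cast_natCast]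
      exact Nat.cast_le.2 h3
    exact_mod_cast h2
  have h1 := h.add _ _ _ (h.add _ _ _ (h.box M _ hρ) _
    (h.sum W _ _ fun w hw => h.nsmul (hqS w hw) (m w))) _ (h.nsmul h.ha τ)
  convert h1 using 1
  · congr 1
    omega
  · abel

theorem Sg.volume (h : Sg S a b C) {t : ℕ} (ht : 0 < t) :
    MeasurableSet {x : Fin d → ℝ | (fun i => ⌊(t : ℝ) * x i⌋) ∈ S t} ∧
      volume.real {x : Fin d → ℝ | (fun i => ⌊(t : ℝ) * x i⌋) ∈ S t} =
        ((S t).ncard : ℝ) / (t : ℝ) ^ d := by
  have ht' : (0 : ℝ) < t := by exact_mod_cast ht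
  have h0 : {x : Fin d → ℝ | (fun i => ⌊(t : ℝ) * x i⌋) ∈ S t} =
      ⋃ z ∈ (h.fin t).toFinset, {x : Fin d → ℝ | (fun i => ⌊(t : ℝ) * x i⌋) = z} := by
    ext x
    simp only [Set.mem_ofPred_eq, Set.mem_iUnion, Set.Finite.mem_toFinset, exists_prop,
      exists_eq_right']
  rw [h0]
  refine ⟨Finset.measurableSet_biUnion _ fun z _ => (monLim_volume_cell ht z).2, ?_⟩
  rw [Measure.real, measure_biUnion_finset]
  · rw [Finset.sum_congr rfl fun z _ => (monLim_volume_cell ht z).1, Finset.sum_const,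
      nsmul_eq_mul, ENNReal.toReal_mul, ENNReal.toReal_natCast,
      ENNReal.toReal_ofReal (by positivity), Set.ncard_eq_toFinset_card _ (h.fin t),
      inv_pow, div_eq_mul_inv]
  · intro z _ z' _ hzz
    refine Set.disjoint_left.2 fun x hx hx' => hzz ?_
    exact (show (fun i => ⌊(t : ℝ) * x i⌋) = z from hx).symm.trans hx'
  · exact fun z _ => (monLim_volume_cell ht z).2

theorem Sg.ball (h : Sg S a b C) : ∃ B : ℝ, ∀ t : ℕ, 0 < t →
    {x : Fin d → ℝ | (fun i => ⌊(t : ℝ) * x i⌋) ∈ S t} ⊆ Metric.closedBall 0 B := by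
  refine ⟨(C * (2 * d + 3) ^ d : ℕ) + ‖toR a‖ + 1, fun t ht x hx => ?_⟩
  have ht' : (1 : ℝ) ≤ t := by exact_mod_cast ht
  rw [mem_closedBall_zero_iff, pi_norm_le_iff_of_nonneg (by positivity)]
  intro i
  have h1 := h.bound ht hx i
  generalize C * (2 * d + 3) ^ d = B at h1 ⊢
  have h2 : |((⌊(t : ℝ) * x i⌋ : ℤ) : ℝ) - t * a i| ≤ B * t := by exact_mod_cast h1
  have h3 := abs_le.1 h2
  have h4 := Int.floor_le ((t : ℝ) * x i)
  have h5 := Int.lt_floor_add_one ((t : ℝ) * x i)
  have h6 : |(a i : ℝ)| ≤ ‖toR a‖ := norm_le_pi_norm (toR a) i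
  have h7 := abs_le.1 h6
  rw [Real.norm_eq_abs, abs_le]
  constructor
  · refine le_of_mul_le_mul_left ?_ (by linarith : (0 : ℝ) < t)
    nlinarith [mul_le_mul_of_nonneg_left h7.1 (by linarith : (0 : ℝ) ≤ t)]
  · refine le_of_mul_le_mul_left ?_ (by linarith : (0 : ℝ) < t)
    nlinarith [mul_le_mul_of_nonneg_left h7.2 (by linarith : (0 : ℝ) ≤ t)]

/-- The number of points of the semigroup has an asymptotic density. -/
theorem Sg.tendsto (h : Sg S a b C) :
    ∃ V : ℝ, Tendsto (fun t : ℕ => ((S t).ncard : ℝ) / (t : ℝ) ^ d) atTop (𝓝 V) := by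
  have hHn : ∀ᵐ x : Fin d → ℝ, x ∉ frontier (body S) := by
    rw [ae_iff]
    have hc : Convex ℝ (body S) := convex_convexHull ℝ _
    simpa using hc.addHaar_frontier MeasureTheory.volume
  obtain ⟨B, hB⟩ := h.ball
  refine ⟨∫ x, (closure (body S)).indicator (fun _ => (1 : ℝ)) x, ?_⟩
  have key : Tendsto (fun t : ℕ => ∫ x, {x : Fin d → ℝ | (fun i => ⌊(t : ℝ) * x i⌋) ∈ S t}.indicator
      (fun _ => (1 : ℝ)) x) atTop (𝓝 (∫ x, (closure (body S)).indicator (fun _ => (1 : ℝ)) x)) := by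
    refine tendsto_integral_filter_of_dominated_convergence
      ((Metric.closedBall (0 : Fin d → ℝ) B).indicator fun _ => (1 : ℝ)) ?_ ?_ ?_ ?_
    · filter_upwards [eventually_gt_atTop 0] with t ht
      exact (measurable_const.indicator (h.volume ht).1).aestronglyMeasurable
    · filter_upwards [eventually_gt_atTop 0] with t ht
      refine Eventually.of_forall fun x => ?_
      rw [Real.norm_of_nonneg (Set.indicator_nonneg (fun _ _ => zero_le_one) x)]
      exact Set.indicator_le_indicator_of_subset (hB t ht) (fun _ => zero_le_one) x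
    · refine (integrable_indicator_iff Metric.isClosed_closedBall.measurableSet).2 ?_
      exact integrableOn_const (isCompact_closedBall _ _).measure_lt_top.ne
    · filter_upwards [hHn] with x hx2
      by_cases hxH : x ∈ closure (body S)
      · have hxHi : x ∈ interior (body S) := by
          by_contra hcon
          exact hx2 ⟨hxH, hcon⟩
        refine tendsto_const_nhds.congr' ?_
        filter_upwards [h.eventually_mem hxHi] with t h2
        rw [Set.indicator_of_mem hxH, Set.indicator_of_mem (by exact h2)]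
      · refine tendsto_const_nhds.congr' ?_
        filter_upwards [(monLim_tendsto_floor x).eventually
          (isClosed_closure.isOpen_compl.mem_nhds hxH), eventually_gt_atTop 0] with t h1 ht
        rw [Set.indicator_of_notMem hxH, Set.indicator_of_notMem]
        exact fun h3 => h1 (subset_closure (subset_convexHull ℝ _ ⟨t, ht, _, h3, rfl⟩))
  refine key.congr' ?_
  filter_upwards [eventually_gt_atTop 0] with t ht
  rw [← (h.volume ht).2]
  exact integral_indicator_one (h.volume ht).1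

end Vale.Agent.P282W
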