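import Vale.Agent.P282W.Cone2
import Vale.Agent.P282Y.All

/-!
P282W: the vertex of the quadric cone is a klt germ
-/

open scoped NNReal ENNReal
open MvPolynomial IsLocalRing Vale.Agent.P282.Gap Vale.Agent.P282Y

namespace Vale.Agent.P282W

section field

variable {K : Type} [Field K] [Algebra ℂ K] {n : ℕ} {U : Fin (n + 1) → K}

theorem der_sum (hU : ∑ i, U i ^ 2 = 0) (D : Derivation ℂ K K) : ∑ l, D (U l) * U l = 0 := by
  have h1 := congrArg D hU
  rw [map_sum, map_zero] at h1
  have h2 : (2 : K) ≠ 0 := by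
    have := (map_ne_zero (algebraMap ℂ K)).2 (two_ne_zero (α := ℂ))
    rwa [map_ofNat] at this
  refine (mul_eq_zero.1 ?_).resolve_left h2
  rw [Finset.mul_sum, ← h1]
  refine Finset.sum_congr rfl fun l _ => ?_
  rw [sq, D.leibniz, smul_eq_mul]
  ring

/-- The residue form in the chart `U i ≠ 0`. -/
theorem minors (hU : ∑ i, U i ^ 2 = 0) (h0 : ∀ i, U i ≠ 0) (i : Fin (n + 1))
    (D : Fin n → Derivation ℂ K K) : (U 0)⁻¹ * jac D (fun j => U ((0 : Fin (n + 1)).succAbove j)) =
      (-1) ^ (i : ℕ) * (U i)⁻¹ * jac D fun j => U (i.succAbove j) := by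
  let c : Fin (n + 1) → K := Pi.single 0 (U i) - Pi.single i (U 0)
  let N : Matrix (Fin (n + 1)) (Fin (n + 1)) K := Matrix.of (Fin.cons c fun k l => D k (U l))
  have h1 : N.det = 0 := by
    refine Matrix.exists_mulVec_eq_zero_iff.1 ⟨U, fun h => h0 0 (congrFun h 0), funext fun k => ?_⟩
    refine Fin.cases ?_ (fun k => der_sum hU (D k)) k
    change c ⬝ᵥ U = 0
    rw [sub_dotProduct, single_dotProduct, single_dotProduct, mul_comm, sub_self]
  rw [Matrix.det_succ_row_zero] at h1
  have h2 : ∀ l : Fin (n + 1),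
      (N.submatrix Fin.succ l.succAbove).det = jac D fun j => U (l.succAbove j) := fun l => rfl
  have h3 : ∀ l, N 0 l = (if l = 0 then U i else 0) - if l = i then U 0 else 0 := fun l => by
    change c l = _
    simp only [c, Pi.sub_apply, Pi.single_apply]
  simp only [h2, h3, mul_sub, sub_mul, mul_ite, ite_mul, mul_zero, zero_mul,
    Finset.sum_sub_distrib, Finset.sum_ite_eq', Finset.mem_univ, if_true] at h1
  have := h0 0
  have := h0 i
  field_simp
  simp only [Fin.val_zero, pow_zero, one_mul] at h1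
  linear_combination h1

variable {w : Valuation K ℝ≥0}

theorem val_jac {D : Fin n → Derivation ℂ K K} {b : Fin n → K} (hb : ∀ i j, w (D i (b j)) ≤ 1) :
    w (jac D b) ≤ 1 := by
  rw [jac, Matrix.det_apply']
  refine w.map_sum_le fun σ _ => ?_
  rw [map_mul, map_prod]
  refine mul_le_one' ?_ (Finset.prod_le_one' fun i _ => hb _ _)
  rcases Int.units_eq_one_or (Equiv.Perm.sign σ) with h | h <;> simp [h]

theorem val_quot {D : Derivation ℂ K K} {x a b : K} (e : x * b = a) (hb : w b = 1) (hx : w x ≤ 1)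
    (h1 : w (D a) ≤ 1) (h2 : w (D b) ≤ 1) : w (D x) ≤ 1 := by
  have h3 : b * D x = D a - x * D b := by
    rw [← e, D.leibniz, smul_eq_mul, smul_eq_mul]
    ring
  have h4 := congrArg w h3
  rw [map_mul, hb, one_mul] at h4
  rw [h4]
  exact w.map_sub_le h1 (by rw [map_mul]; exact mul_le_one' hx h2)

omit [Algebra ℂ K] in
theorem val_sign (i : ℕ) : w ((-1) ^ i) = 1 := by simp

theorem jac_update {y : Fin n → K} {d : Fin n → Derivation ℂ K K} (hd : Du y d) (k : Fin n)
    (f : K) : jac d (Function.update y k f) = d k f := by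
  have h1 : (Matrix.of fun i j => d i (Function.update y k f j)) =
      (1 : Matrix (Fin n) (Fin n) K).updateCol k fun i => d i f := by
    ext i j
    by_cases hj : j = k
    · simp [hj]
    · simp [hj, hd.dual, Matrix.one_apply]
  rw [jac, h1, ← Matrix.cramer_apply, Matrix.cramer_one]
  rfl

theorem der_ev {y : Fin n → K} {d : Fin n → Derivation ℂ K K} (hd : Du y d) (i : Fin n)
    (G : MvPolynomial (Fin n) ℂ) : d i (aeval y G) = aeval y (pderiv i G) := by
  induction G using MvPolynomial.induction_on with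
  | C a => simp
  | add p q hp hq => simp [hp, hq]
  | mul_X p j h =>
    simp only [map_mul, aeval_X, Derivation.leibniz, h, hd.dual, pderiv_X, smul_eq_mul, map_add,
      Pi.single_apply]
    by_cases hij : i = j
    · simp [hij]
    · simp [hij, Ne.symm hij]

theorem exists_min {y : Fin n → K} (hle : ∀ G : MvPolynomial (Fin n) ℂ, w (aeval y G) ≤ 1)
    (hc : ∀ c : ℂ, c ≠ 0 → w (algebraMap ℂ K c) = 1) (m : ℕ) :
    ∀ F : MvPolynomial (Fin n) ℂ, F.totalDegree ≤ m → F ≠ 0 → w (aeval y F) < 1 →
      ∃ (F : MvPolynomial (Fin n) ℂ) (k : Fin n), F ≠ 0 ∧ w (aeval y F) < 1 ∧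
        w (aeval y (pderiv k F)) = 1 := by
  induction m using Nat.strong_induction_on with
  | _ m ih =>
    intro F hm h0 h1
    obtain ⟨k, hk⟩ := P282.L2.exists_pderiv_ne_zero (f := F) fun c e => by
      rw [e, aeval_C, hc c fun e' => h0 (by rw [e, e', map_zero])] at h1
      exact lt_irrefl _ h1
    rcases (hle (pderiv k F)).eq_or_lt with h2 | h2
    · exact ⟨F, k, h0, h1, h2⟩
    · exact ih _ ((P282.L2.totalDegree_pderiv_lt' hk).trans_le hm) _ le_rfl hk h2

end field

namespace Cone

variable {n : ℕ} {R K : Type} [CommRing R] [IsDomain R] [IsLocalRing R] [Algebra ℂ R] [Field K]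
  [Algebra ℂ K] [Algebra R K] [IsFractionRing R K] [IsScalarTower ℂ R K] {u : Fin (n + 1) → R}

variable (K u) in
/-- The residue form of the quadric cone. -/
noncomputable def om (D : Fin n → Derivation ℂ K K) : K :=
  (algebraMap R K (u 0))⁻¹ * jac D fun j => algebraMap R K (u ((0 : Fin (n + 1)).succAbove j))

omit [IsDomain R] [Algebra ℂ K] [IsScalarTower ℂ R K] in
theorem ne (h : Cone n R u) (i : Fin (n + 1)) : algebraMap R K (u i) ≠ 0 := by
  rw [map_ne_zero_iff _ (IsFractionRing.injective R K)]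
  intro h0
  have := h.li (c := Pi.single i 1) (by simp [Pi.single_apply, h0]) i
  simp at this

omit [IsDomain R] [IsScalarTower ℂ R K] in
theorem om_eq (h : Cone n R u) (i : Fin (n + 1)) (D : Fin n → Derivation ℂ K K) :
    om K u D = (-1) ^ (i : ℕ) * (algebraMap R K (u i))⁻¹ *
      jac D fun j => algebraMap R K (u (i.succAbove j)) :=
  minors (U := fun i => algebraMap R K (u i))
    (by simpa using congrArg (algebraMap R K) h.sum_sq) h.ne i D

theorem du (h : Cone n R u) (i : Fin (n + 1)) :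
    ∃ d, Du (fun j => algebraMap R K (u (i.succAbove j))) d := by
  have := (faithfulSMul_iff_algebraMap_injective R K).2 (IsFractionRing.injective R K)
  have : Algebra.IsAlgebraic R K := IsLocalization.isAlgebraic K (nonZeroDivisors R)
  exact P282Y.du K n _ (h.tb i).algebraMap_comp

theorem germ (h : Cone n R u) : IsGerm R n 1 (om K u) := by
  obtain ⟨d, hd⟩ := h.du (K := K) 0
  refine ⟨h.ess, h.normal, h.res, by simpa using (h.tb 0).lift_cardinalMk_eq_trdeg.symm, one_pos,
    ⟨d, ?_⟩, _, _, fun D => by rw [pow_one]; rfl⟩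
  rw [om, hd.jac_self, mul_one]
  exact inv_ne_zero (h.ne 0)

variable {w : Valuation K ℝ≥0}

omit [IsDomain R] [IsLocalRing R] [Algebra ℂ R] [Algebra ℂ K] [IsFractionRing R K]
  [IsScalarTower ℂ R K] in
theorem val_unit (hw : ∀ f : R, w (algebraMap R K f) ≤ 1) {t : R} (ht : IsUnit t) :
    w (algebraMap R K t) = 1 := by
  obtain ⟨s, hs⟩ := ht.exists_right_inv
  refine le_antisymm (hw t) ?_
  calc 1 = w (algebraMap R K t) * w (algebraMap R K s) := by rw [← map_mul, ← map_mul, hs]; simp
    _ ≤ _ := mul_le_of_le_one_right' (hw s)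

omit [IsDomain R] [IsFractionRing R K] in
theorem val_der (h : Cone n R u) (hw : ∀ f : R, w (algebraMap R K f) ≤ 1) {i : Fin (n + 1)}
    (hi : w (algebraMap R K (u i)) = 1) {d : Fin n → Derivation ℂ K K}
    (hd : Du (fun j => algebraMap R K (u (i.succAbove j))) d) (l : Fin n) (r : R) :
    w (d l (algebraMap R K r)) ≤ 1 := by
  have h0 : ∀ j, w (d l (algebraMap R K (u (i.succAbove j)))) ≤ 1 := fun j => by
    rw [hd.dual]
    split_ifs <;> simp
  have h1 : ∀ j, w (d l (algebraMap R K (u j))) ≤ 1 := by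
    intro j
    obtain rfl | ⟨j, rfl⟩ := Fin.eq_self_or_eq_succAbove i j
    · have h2 := der_sum (U := fun i => algebraMap R K (u i))
        (by simpa using congrArg (algebraMap R K) h.sum_sq) (d l)
      rw [Fin.sum_univ_succAbove _ j] at h2
      have h3 := congrArg w (eq_neg_of_add_eq_zero_left h2)
      rw [map_mul, hi, mul_one, Valuation.map_neg] at h3
      rw [h3]
      exact w.map_sum_le fun k _ => by rw [map_mul]; exact mul_le_one' (h0 k) (hw _)
    · exact h0 j
  have h2 : ∀ G : MvPolynomial (Fin (n + 1)) ℂ, w (d l (algebraMap R K (aeval u G))) ≤ 1 := by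
    intro G
    induction G using MvPolynomial.induction_on with
    | C a => simp [← IsScalarTower.algebraMap_apply]
    | add p q hp hq => rw [map_add, map_add, map_add]; exact w.map_add_le hp hq
    | mul_X p j hp =>
      rw [map_mul, map_mul, aeval_X, Derivation.leibniz, smul_eq_mul, smul_eq_mul]
      exact w.map_add_le (by rw [map_mul]; exact mul_le_one' (hw _) (h1 j))
        (by rw [map_mul]; exact mul_le_one' (hw _) hp)
  obtain ⟨G, -, H, hH, e⟩ := h.pow 0 r (by simp)
  exact val_quot (by rw [← map_mul, e]) (val_unit hw (h.unit hH)) (hw r) (h2 G) (h2 H)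

theorem canonical (hn : 2 ≤ n) (h : Cone n R u) {P : Ideal R} (hc : HasCenter R w P)
    (hP : P.height = 1) : IsOrd n 1 (om K u) w 0 := by
  have := h.noeth
  have := h.normal
  have hw : ∀ f : R, w (algebraMap R K f) ≤ 1 := fun f => (hc f).1
  have hone : ∀ f : R, f ∉ P → w (algebraMap R K f) = 1 := fun f hf =>
    le_antisymm (hc f).1 (not_lt.1 fun h => hf ((hc f).2.1 h))
  have : P.IsPrime := by
    refine ⟨fun h => ?_, fun {a b} hab => ?_⟩
    · simpa using (hc 1).2.2 (h ▸ Submodule.mem_top)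
    · by_contra h
      rw [not_or] at h
      have := (hc _).2.2 hab
      rw [map_mul, map_mul, hone a h.1, hone b h.2, one_mul] at this
      exact lt_irrefl _ this
  obtain ⟨i, hi⟩ : ∃ i, u i ∉ P := by
    by_contra h1
    push Not at h1
    have h2 : maximalIdeal R ≤ P := h.span ▸ Ideal.span_le.2 (Set.range_subset_iff.2 h1)
    have key : ∀ (a b : Fin (n + 1)) (r s : R), a ≠ b → u a * r = u b * s → s ∈ P := by
      intro a b r s hab e
      have := h.li (c := Pi.single b s - Pi.single a r) (by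
        simp [sub_mul, Pi.single_apply, mul_comm r, mul_comm s, e]) b
      exact h2 (by simpa [hab.symm] using this)
    have h01 : (0 : Fin (n + 1)) ≠ ⟨1, by omega⟩ := fun e => by simpa using congrArg Fin.val e
    obtain ⟨r, s, hs, e | e⟩ := ht1_cond P hP (u 0) (u ⟨1, by omega⟩)
    · exact hs (key _ _ r s h01 e)
    · exact hs (key _ _ r s h01.symm e)
  obtain ⟨d, hd⟩ := h.du (K := K) i
  have key : ∀ x : K, w x ≤ 1 → ∃ a b : R, w (algebraMap R K b) = 1 ∧
      x * algebraMap R K b = algebraMap R K a := by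
    intro x hx
    obtain ⟨p, q, hq, rfl⟩ := IsFractionRing.div_surjective (A := R) x
    have hq0 : algebraMap R K q ≠ 0 := IsFractionRing.to_map_ne_zero_of_mem_nonZeroDivisors hq
    obtain ⟨a, s, hs, h | h⟩ := ht1_cond P hP p q
    · have e : algebraMap R K p / algebraMap R K q * algebraMap R K a = algebraMap R K s := by
        rw [div_mul_eq_mul_div, ← map_mul, h, map_mul, mul_div_cancel_left₀ _ hq0]
      refine ⟨s, a, le_antisymm (hc a).1 ?_, e⟩
      calc 1 = w (algebraMap R K p / algebraMap R K q) * w (algebraMap R K a) := by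
            rw [← map_mul, e, hone s hs]
        _ ≤ _ := mul_le_of_le_one_left' hx
    · exact ⟨a, s, hone s hs, by
        rw [div_mul_eq_mul_div, ← map_mul, ← h, map_mul, mul_div_cancel_left₀ _ hq0]⟩
  refine ⟨fun j => algebraMap R K (u (i.succAbove j)), (-1) ^ (i : ℕ) * (algebraMap R K (u i))⁻¹,
    fun j => hw _, fun c hc' => ⟨jac d c, val_jac fun l j => ?_,
      fun D => by rw [hd.chain D c, mul_comm]⟩, fun D => by rw [pow_one, h.om_eq i], ?_⟩
  · obtain ⟨a, b, hb, e⟩ := key _ (hc' j)
    exact val_quot e hb (hc' j) (h.val_der hw (hone _ hi) hd l a) (h.val_der hw (hone _ hi) hd l b)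
  · rw [map_mul, val_sign, map_inv₀, hone _ hi]
    simp

theorem pos (hn : 2 ≤ n) (h : Cone n R u) (hw : IsDivisor R w) :
    ∃ t ∈ LS n 1 (om K u) w, 0 < t := by
  suffices H : ∃ (b : Fin n → K) (g : K), (∀ i, b i ≠ 0) ∧
      (∀ D, (∏ i, b i) * om K u D = g * jac D b) ∧ g ≠ 0 ∧ w g < 1 by
    obtain ⟨b, g, h1, h2, h3, h4⟩ := H
    refine ⟨_, ⟨b, g, h1, by simpa using h2, rfl⟩, ?_⟩
    have h5 : (0 : ℝ) < w g := by exact_mod_cast w.pos_iff.2 h3
    simpa using Real.log_neg h5 (by exact_mod_cast h4)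
  obtain ⟨i, -, hi⟩ := Finset.univ.exists_max_image (fun i => w (algebraMap R K (u i)))
    ⟨0, Finset.mem_univ _⟩
  have hne : ((-1) ^ (i : ℕ) * (algebraMap R K (u i))⁻¹ : K) ≠ 0 :=
    mul_ne_zero (by simp) (inv_ne_zero (h.ne i))
  rcases (hw.above (u i)).eq_or_lt with h1 | h1
  · obtain ⟨d, hd⟩ := h.du (K := K) i
    set y : Fin n → K := fun j => algebraMap R K (u (i.succAbove j)) with hy
    have hev : ∀ G : MvPolynomial (Fin n) ℂ,
        aeval y G = algebraMap R K (aeval (fun j => u (i.succAbove j)) G) := fun G =>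
      aeval_algebraMap_apply K _ G
    obtain ⟨f, hf⟩ := hw.normalized.1
    obtain ⟨p, q, hq, rfl⟩ := IsFractionRing.div_surjective (A := R) f
    have hq0 : algebraMap R K q ≠ 0 := IsFractionRing.to_map_ne_zero_of_mem_nonZeroDivisors hq
    have hp0 : p ≠ 0 := by
      rintro rfl
      simpa using hf.trans_gt (Real.exp_pos _)
    have hp1 : w (algebraMap R K p) < 1 := by
      rw [← div_mul_cancel₀ (algebraMap R K p) hq0, map_mul]
      refine (mul_le_of_le_one_right' (hw.above q)).trans_lt ?_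
      rw [← NNReal.coe_lt_coe, hf]
      simp
    obtain ⟨⟨c, hc⟩, hc0, s, hs⟩ := ((h.tb i).isAlgebraic.1 p).exists_nonzero_dvd
      (mem_nonZeroDivisors_of_ne_zero hp0)
    rw [Algebra.adjoin_range_eq_range_aeval] at hc
    obtain ⟨F₀, rfl⟩ := hc
    obtain ⟨F, k, hF0, hF1, hF2⟩ := exists_min (w := w) (y := y)
      (fun G => by rw [hev]; exact hw.above _)
      (fun c hc => by
        rw [IsScalarTower.algebraMap_apply ℂ R K]
        exact val_unit hw.above ((IsUnit.mk0 c hc).map _)) _ F₀ le_rfl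
      (fun e => hc0 (Subtype.ext (by simp [e]))) (by
        rw [hev]
        have hs' : aeval (fun j => u (i.succAbove j)) F₀ = p * s := hs
        rw [hs', map_mul, map_mul]
        exact (mul_le_of_le_one_right' (hw.above s)).trans_lt hp1)
    have hF : aeval y F ≠ 0 := by
      rw [hev, map_ne_zero_iff _ (IsFractionRing.injective R K)]
      exact fun e => hF0 (algebraicIndependent_iff.1 (h.tb i).1 F e)
    have hF' : aeval y (pderiv k F) ≠ 0 := fun e => by simp [e] at hF2
    have hb : ∀ j, Function.update y k (aeval y F) j ≠ 0 := fun j => by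
      by_cases hj : j = k
      · simpa [hj] using hF
      · simpa only [Function.update_of_ne hj] using h.ne _
    refine ⟨Function.update y k (aeval y F), (∏ j, Function.update y k (aeval y F) j) *
      ((-1) ^ (i : ℕ) * (algebraMap R K (u i))⁻¹) / aeval y (pderiv k F), hb, fun D => ?_,
      div_ne_zero (mul_ne_zero (Finset.prod_ne_zero_iff.2 fun j _ => hb j) hne) hF', ?_⟩
    · rw [h.om_eq i, hd.chain D (Function.update y k (aeval y F)), jac_update hd, der_ev hd, ← hy]
      field_simp
    · rw [map_div₀, hF2, div_one, map_mul, map_mul, val_sign, map_inv₀, h1, inv_one, mul_one,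
        mul_one, map_prod, ← Finset.mul_prod_erase _ _ (Finset.mem_univ k), Function.update_self]
      refine (mul_le_of_le_one_right' (Finset.prod_le_one' fun j hj => ?_)).trans_lt hF1
      rw [Function.update_of_ne (Finset.ne_of_mem_erase hj)]
      exact hw.above _
  · refine ⟨fun j => algebraMap R K (u (i.succAbove j)), (∏ j, algebraMap R K (u (i.succAbove j))) *
      ((-1) ^ (i : ℕ) * (algebraMap R K (u i))⁻¹), fun j => h.ne _, fun D => by
        rw [h.om_eq i, ← mul_assoc],
      mul_ne_zero (Finset.prod_ne_zero_iff.2 fun j _ => h.ne _) hne, ?_⟩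
    have h2 : 0 < w (algebraMap R K (u i)) := w.pos_iff.2 (h.ne i)
    rw [map_mul, map_mul, val_sign, one_mul, map_inv₀, map_prod, mul_inv_lt_iff₀ h2, one_mul]
    refine (Finset.prod_le_pow_card _ _ _ fun j _ => hi _ (Finset.mem_univ _)).trans_lt ?_
    rw [Finset.card_univ, Fintype.card_fin]
    exact pow_lt_self_of_lt_one₀ h2 h1 (by omega)

theorem klt (hn : 2 ≤ n) (h : Cone n R u) : IsKlt R n 1 (om K u) := by
  refine ⟨fun w P _ hc hP => h.canonical hn hc hP, fun w k hw hk => ?_⟩
  obtain ⟨t, ht, h0⟩ := h.pos hn hw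
  obtain ⟨c, h1, h2⟩ := (P282Y.cmp stCFR stCHART R K n 1 _ h.germ).2.2 w hw.above t ht
  have h3 : ENNReal.ofReal (c.discr w) ≤ logDiscr R n 1 (om K u) w :=
    le_iSup₂ (f := fun (c : SncChart R n 1 (om K u)) (_ : c.Sees w) =>
      ENNReal.ofReal (c.discr w)) c h1
  rw [(stDICT R K n 1 _ h.germ).1.divisorial w k hw hk] at h3
  exact ENNReal.ofReal_pos.1 ((ENNReal.ofReal_pos.2 (h0.trans_le h2)).trans_le h3)

end Cone

/-- An ordinary double point of dimension `n ≥ 2` exists and is a singular klt germ. -/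
theorem exists_odp {n : ℕ} (hn : 2 ≤ n) :
    ∃ (R : Type) (_ : CommRing R) (_ : IsDomain R) (_ : IsLocalRing R) (_ : Algebra ℂ R)
      (ω : (Fin n → Derivation ℂ (FractionRing R) (FractionRing R)) → FractionRing R),
      IsGerm R n 1 ω ∧ IsKlt R n 1 ω ∧ ¬ IsRegularLocalRing R ∧ IsODP R n := by
  obtain ⟨R, _, _, _, _, u, h⟩ := exists_cone hn
  exact ⟨R, _, _, _, _, _, h.germ, h.klt hn, h.sing, h.odp⟩

end Vale.Agent.P282W
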